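import Mathlib

/-!
# P296: sections of line bundles on a complex torus as entire functions

A line bundle of degree `n` on `ℂ / (ℤ + τ ℤ)` is given by the multipliers `1` and
`c * exp (-2 π i n z)`. We record the elementary rules, and that there are no sections in negative
degree and only exponentials in degree zero. Only a comparison with a Gaussian weight and
Liouville's theorem are used.
-/

noncomputable section

namespace Vale.Agent.P296.Theta

open Complex
open scoped Real

/-- The multiplier of degree `n`. -/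
def mult (n : ℤ) (c z : ℂ) : ℂ := c * cexp (-2 * π * I * n * z)

/-- Sections of the line bundle of degree `n` with multiplier constant `c`. -/
structure IsSect (τ : ℂ) (n : ℤ) (c : ℂ) (f : ℂ → ℂ) : Prop where
  diff : Differentiable ℂ f
  add_one : ∀ z, f (z + 1) = f z
  add_tau : ∀ z, f (z + τ) = mult n c z * f z

namespace IsSect

variable {τ c c' : ℂ} {n n' : ℤ} {f g : ℂ → ℂ}

lemma zero : IsSect τ n c 0 := ⟨differentiable_const _, fun _ => rfl, fun _ => by simp⟩

lemma const (a : ℂ) : IsSect τ 0 1 (fun _ => a) :=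
  ⟨differentiable_const _, fun _ => rfl, fun _ => by simp [mult]⟩

lemma add (hf : IsSect τ n c f) (hg : IsSect τ n c g) : IsSect τ n c (f + g) :=
  ⟨hf.diff.add hg.diff, fun z => by simp [hf.add_one, hg.add_one],
    fun z => by simp [hf.add_tau, hg.add_tau, mul_add]⟩

lemma smul (a : ℂ) (hf : IsSect τ n c f) : IsSect τ n c (a • f) :=
  ⟨hf.diff.const_smul a, fun z => by simp [hf.add_one],
    fun z => by simp [hf.add_tau, mul_left_comm]⟩

lemma mul (hf : IsSect τ n c f) (hg : IsSect τ n' c' g) : IsSect τ (n + n') (c * c') (f * g) := by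
  refine ⟨hf.diff.mul hg.diff, fun z => by simp [hf.add_one, hg.add_one], fun z => ?_⟩
  simp only [Pi.mul_apply, hf.add_tau, hg.add_tau, mult]
  push_cast
  rw [show -2 * π * I * ((n : ℂ) + n') * z = -2 * π * I * n * z + -2 * π * I * n' * z by ring,
    Complex.exp_add]
  ring

lemma translate (hf : IsSect τ n c f) (a : ℂ) :
    IsSect τ n (c * cexp (-2 * π * I * n * a)) (fun z => f (z + a)) := by
  refine ⟨hf.diff.comp (differentiable_id.add_const a), fun z => ?_, fun z => ?_⟩
  · rw [show z + 1 + a = z + a + 1 by ring, hf.add_one]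
  · rw [show z + τ + a = z + a + τ by ring, hf.add_tau]
    simp only [mult]
    rw [show -2 * π * I * (n : ℂ) * (z + a) = -2 * π * I * n * a + -2 * π * I * n * z by ring,
      Complex.exp_add]
    ring

lemma deriv_add_one (hf : IsSect τ n c f) (z : ℂ) : deriv f (z + 1) = deriv f z := by
  rw [← deriv_comp_add_const f 1 z]
  exact congrArg (fun h => deriv h z) (funext hf.add_one)

/-- The transformation of the derivative: the jet bundle is an extension. -/
lemma deriv_add_tau (hf : IsSect τ n c f) (z : ℂ) :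
    deriv f (z + τ) = mult n c z * (deriv f z - 2 * π * I * n * f z) := by
  rw [← deriv_comp_add_const f τ z, show (fun x => f (x + τ)) = fun x => mult n c x * f x from
    funext hf.add_tau]
  have h1 : HasDerivAt (fun x => mult n c x) (mult n c z * (-2 * π * I * n)) z := by
    have := (((hasDerivAt_id z).const_mul (-2 * π * I * (n : ℂ))).cexp).const_mul c
    simpa [mult, mul_assoc] using this
  refine (h1.mul (hf.diff z).hasDerivAt).deriv.trans ?_
  ring

/-! ### Weights -/

/-- The exponent of the Gaussian weight making the modulus periodic. -/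
def weightA (τ : ℂ) (n : ℤ) : ℝ := -π * n / τ.im

/-- The linear exponent of the weight. -/
def weightB (τ : ℂ) (n : ℤ) (c : ℂ) : ℝ := -(Real.log ‖c‖ + weightA τ n * τ.im ^ 2) / τ.im

lemma exists_max_of_periodic {φ : ℂ → ℝ} (hφ : Continuous φ) (h1 : ∀ z, φ (z + 1) = φ z)
    (hτ : 0 < τ.im) (h2 : ∀ z, φ (z + τ) = φ z) : ∃ z₀, ∀ z, φ z ≤ φ z₀ := by
  let L : ℝ × ℝ → ℂ := fun p => p.1 + p.2 * τ
  obtain ⟨p, hp, hmax⟩ := (isCompact_Icc.prod isCompact_Icc :
      IsCompact (Set.Icc (0 : ℝ) 1 ×ˢ Set.Icc (0 : ℝ) 1)).exists_isMaxOn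
    ⟨(0, 0), by simp⟩ ((hφ.comp (by fun_prop : Continuous L)).continuousOn)
  have hp1 : Function.Periodic φ 1 := h1
  have hp2 : Function.Periodic φ τ := h2
  refine ⟨L p, fun z => ?_⟩
  set b := z.im / τ.im
  set a := z.re - b * τ.re
  have hz : z = a + b * τ := by
    apply Complex.ext <;> simp [a, b, div_mul_cancel₀ _ hτ.ne']
  have h := hmax (show (Int.fract a, Int.fract b) ∈ Set.Icc (0 : ℝ) 1 ×ˢ Set.Icc (0 : ℝ) 1 from
    ⟨⟨Int.fract_nonneg a, (Int.fract_lt_one a).le⟩, Int.fract_nonneg b, (Int.fract_lt_one b).le⟩)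
  refine le_trans (le_of_eq ?_) h
  have e : z = (L (Int.fract a, Int.fract b) + (⌊a⌋ : ℂ) * 1) + (⌊b⌋ : ℂ) * τ := by
    conv_lhs => rw [hz]
    simp only [L, Int.fract]
    push_cast
    ring
  rw [Function.comp_apply, e, hp2.int_mul ⌊b⌋, hp1.int_mul ⌊a⌋]

/-- The weighted modulus is bounded by its value at some point `z₀`, read in a holomorphic gauge
at `z₀`. -/
lemma exists_gauge (hτ : 0 < τ.im) (hc : c ≠ 0) (hf : IsSect τ n c f) :
    ∃ z₀ a : ℂ, ∀ w : ℂ,
      ‖f (z₀ + w) * cexp (a * w - (weightA τ n / 2 : ℝ) * w ^ 2)‖ ≤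
          ‖f z₀‖ * Real.exp (-(weightA τ n / 2) * ‖w‖ ^ 2) ∧
      (f z₀ = 0 → ∀ z, f z = 0) := by
  set A := weightA τ n with hA
  set B := weightB τ n c with hB
  let φ : ℂ → ℝ := fun z => ‖f z‖ * Real.exp (A * z.im ^ 2 + B * z.im)
  have hfc := hf.diff.continuous
  have hφ : Continuous φ := by simp only [φ]; fun_prop
  have h1 : ∀ z, φ (z + 1) = φ z := fun z => by simp [φ, hf.add_one]
  have h2 : ∀ z, φ (z + τ) = φ z := fun z => by
    have e1 : ‖cexp (-2 * π * I * n * z)‖ = Real.exp (2 * π * n * z.im) := by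
      rw [Complex.norm_exp]
      congr 1
      simp [Complex.mul_re, Complex.mul_im]
    simp only [φ, hf.add_tau, mult, norm_mul, e1, Complex.add_im]
    conv_lhs => arg 1; arg 1; arg 1; rw [← Real.exp_log (norm_pos_iff.2 hc)]
    rw [show Real.exp (Real.log ‖c‖) * Real.exp (2 * π * n * z.im) * ‖f z‖ *
        Real.exp (A * (z.im + τ.im) ^ 2 + B * (z.im + τ.im)) = ‖f z‖ *
        (Real.exp (Real.log ‖c‖) * Real.exp (2 * π * n * z.im) *
          Real.exp (A * (z.im + τ.im) ^ 2 + B * (z.im + τ.im))) by ring,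
      ← Real.exp_add, ← Real.exp_add]
    congr 2
    have hAt : A * τ.im = -π * n := by rw [hA, weightA]; field_simp
    have hBt : B * τ.im = -(Real.log ‖c‖ + A * τ.im ^ 2) := by
      rw [hB, weightB, ← hA]; field_simp
    linear_combination (2 * z.im) * hAt + hBt
  obtain ⟨z₀, hmax⟩ := exists_max_of_periodic hφ h1 hτ h2
  refine ⟨z₀, ((2 * A * z₀.im + B : ℝ) : ℂ) * (-I), fun w => ⟨?_, fun h0 z => ?_⟩⟩
  · have h3 := hmax (z₀ + w)
    simp only [φ, Complex.add_im] at h3
    rw [norm_mul, Complex.norm_exp]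
    have hre : (((2 * A * z₀.im + B : ℝ) : ℂ) * (-I) * w - ((A / 2 : ℝ) : ℂ) * w ^ 2).re =
        (2 * A * z₀.im + B) * w.im - A / 2 * (w.re ^ 2 - w.im ^ 2) := by
      simp [Complex.mul_re, Complex.mul_im, pow_two]
    have hn : ‖w‖ ^ 2 = w.re ^ 2 + w.im ^ 2 := by
      rw [Complex.sq_norm, Complex.normSq_apply]; ring
    rw [hre]
    set T := A * z₀.im ^ 2 + B * z₀.im
    have h4 := mul_le_mul_of_nonneg_right h3
      (Real.exp_pos (-(A / 2) * ‖w‖ ^ 2 - T)).le
    rw [mul_assoc, mul_assoc, ← Real.exp_add, ← Real.exp_add, hn] at h4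
    refine le_trans (le_of_eq ?_) (h4.trans (le_of_eq ?_))
    · congr 2; ring
    · rw [hn]; congr 2; ring
  · have h3 := hmax z
    simp only [φ, h0, norm_zero, zero_mul] at h3
    exact norm_le_zero_iff.1 (nonpos_of_mul_nonpos_left h3 (Real.exp_pos _))

/-- No sections in negative degree. -/
theorem eq_zero_of_neg (hτ : 0 < τ.im) (hc : c ≠ 0) (hn : n < 0) (hf : IsSect τ n c f) :
    ∀ z, f z = 0 := by
  obtain ⟨z₀, a, h⟩ := exists_gauge hτ hc hf
  refine (h 0).2 ?_
  set A := weightA τ n with hA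
  have hApos : 0 < A := by
    rw [hA, weightA]
    have : (n : ℝ) < 0 := by exact_mod_cast hn
    exact div_pos (by nlinarith [Real.pi_pos]) hτ
  let g : ℂ → ℂ := fun w => f (z₀ + w) * cexp (a * w - (A / 2 : ℝ) * w ^ 2)
  have hfd := hf.diff
  have hg : Differentiable ℂ g := by simp only [g]; fun_prop
  have hb : Bornology.IsBounded (Set.range g) := by
    refine (Metric.isBounded_closedBall (x := (0 : ℂ)) (r := ‖f z₀‖)).subset ?_
    rintro _ ⟨w, rfl⟩
    rw [mem_closedBall_zero_iff]
    refine (h w).1.trans (mul_le_of_le_one_right (norm_nonneg _) (Real.exp_le_one_iff.2 ?_))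
    nlinarith [sq_nonneg ‖w‖]
  have h1 := (h 1).1
  change ‖g 1‖ ≤ _ at h1
  rw [hg.apply_eq_apply_of_bounded hb 1 0] at h1
  simp only [g, add_zero, mul_zero, ne_eq, OfNat.ofNat_ne_zero, not_false_eq_true, zero_pow,
    sub_zero, Complex.exp_zero, mul_one, norm_one, one_pow] at h1
  have hlt : Real.exp (-(A / 2)) < 1 := Real.exp_lt_one_iff.2 (by linarith)
  exact norm_le_zero_iff.1 (by nlinarith [norm_nonneg (f z₀)])

/-- In degree zero every section is an exponential. -/
theorem exists_exp_of_deg_zero (hτ : 0 < τ.im) (hc : c ≠ 0) (hf : IsSect τ 0 c f) :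
    ∃ k : ℤ, (∀ z, f z = f 0 * cexp (2 * π * I * k * z)) ∧
      (f 0 ≠ 0 → c = cexp (2 * π * I * k * τ)) := by
  obtain ⟨z₀, a, h⟩ := exists_gauge hτ hc hf
  by_cases h0 : ∀ z, f z = 0
  · exact ⟨0, fun z => by simp [h0], fun h' => absurd (h0 0) h'⟩
  have hA : weightA τ 0 = 0 := by simp [weightA]
  let g : ℂ → ℂ := fun w => f (z₀ + w) * cexp (a * w)
  have hfd := hf.diff
  have hg : Differentiable ℂ g := by simp only [g]; fun_prop
  have hb : Bornology.IsBounded (Set.range g) := by
    refine (Metric.isBounded_closedBall (x := (0 : ℂ)) (r := ‖f z₀‖)).subset ?_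
    rintro _ ⟨w, rfl⟩
    rw [mem_closedBall_zero_iff]
    simpa [hA, g, norm_mul] using (h w).1
  have hz₀ : f z₀ ≠ 0 := fun e => h0 ((h 0).2 e)
  have hform : ∀ z, f z = f 0 * cexp (-a * z) := fun z => by
    have h1 := hg.apply_eq_apply_of_bounded hb (z - z₀) (-z₀)
    simp only [g, add_sub_cancel, add_neg_cancel] at h1
    rw [show a * (z - z₀) = a * z + a * -z₀ by ring, Complex.exp_add, ← mul_assoc] at h1
    have h2 := mul_right_cancel₀ (Complex.exp_ne_zero _) h1
    rw [← h2, mul_assoc, ← Complex.exp_add, neg_mul, add_neg_cancel, Complex.exp_zero, mul_one]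
  have hf0 : f 0 ≠ 0 := fun e => hz₀ (by rw [hform z₀, e, zero_mul])
  have h1 := hf.add_one 0
  rw [zero_add, hform 1, mul_one] at h1
  obtain ⟨k, hk⟩ := Complex.exp_eq_one_iff.1 (mul_left_cancel₀ hf0 (h1.trans (mul_one _).symm))
  refine ⟨k, fun z => ?_, fun _ => ?_⟩
  · rw [hform z, hk]
    congr 2
    ring
  · have h2 := hf.add_tau 0
    rw [zero_add, hform τ, hk] at h2
    simp only [mult, Int.cast_zero, mul_zero, Complex.exp_zero, mul_one] at h2
    rw [mul_comm c] at h2
    rw [← mul_left_cancel₀ hf0 h2]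
    congr 1
    ring

/-- In degree zero with unitary multiplier every section is constant, zero unless `c = 1`. -/
theorem eq_const_of_flat (hτ : 0 < τ.im) (hc : ‖c‖ = 1) (hf : IsSect τ 0 c f) :
    (∀ z, f z = f 0) ∧ (c ≠ 1 → ∀ z, f z = 0) := by
  have hc0 : c ≠ 0 := fun e => by simp [e] at hc
  obtain ⟨k, hk, hck⟩ := exists_exp_of_deg_zero hτ hc0 hf
  by_cases h0 : f 0 = 0
  · exact ⟨fun z => by rw [hk z, h0, zero_mul], fun _ z => by rw [hk z, h0, zero_mul]⟩
  have hk0 : k = 0 := by
    have := congrArg norm (hck h0)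
    rw [hc, Complex.norm_exp] at this
    have h2 : (2 * π * I * k * τ).re = -(2 * π * τ.im) * k := by
      simp [Complex.mul_re, Complex.mul_im]; ring
    rw [h2, eq_comm, Real.exp_eq_one_iff, mul_eq_zero] at this
    rcases this with h3 | h3
    · nlinarith [Real.pi_pos]
    · exact_mod_cast h3
  refine ⟨fun z => by rw [hk z, hk0]; simp, fun h1 => absurd ?_ h1⟩
  rw [hck h0, hk0]
  simp

end IsSect

/-- The unipotent extension does not split: a periodic function additive in `τ` is constant. -/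
theorem affine_flat {τ c a : ℂ} {f : ℂ → ℂ} (hτ : 0 < τ.im) (hc : ‖c‖ = 1) (hd : Differentiable ℂ f)
    (h1 : ∀ z, f (z + 1) = f z) (h2 : ∀ z, f (z + τ) = c * f z + a) :
    (∀ z, f z = f 0) ∧ (c = 1 → a = 0) := by
  by_cases hc1 : c = 1
  · subst hc1
    have hs : IsSect τ 0 1 (deriv f) := by
      refine ⟨hd.contDiff.differentiable_deriv_two, fun z => ?_, fun z => ?_⟩
      · rw [← deriv_comp_add_const f 1 z]
        exact congrArg (fun h => deriv h z) (funext h1)
      · rw [← deriv_comp_add_const f τ z,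
          show (fun x => f (x + τ)) = fun x => f x + a from funext fun x => by rw [h2, one_mul],
          deriv_add_const]
        simp [mult]
    have hd' := (hs.eq_const_of_flat hτ (by simp)).1
    set b := deriv f 0 with hb
    have hlin : ∀ z, f z = f 0 + b * z := fun z => by
      have hg : ∀ x, HasDerivAt (fun x => f x - b * x) 0 x := fun x => by
        have := (hd x).hasDerivAt.sub ((hasDerivAt_id x).const_mul b)
        simp only [mul_one, id_eq, hd' x, sub_self] at this
        exact this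
      have := is_const_of_deriv_eq_zero (fun x => (hg x).differentiableAt) (fun x => (hg x).deriv) z 0
      simp only [mul_zero, sub_zero] at this
      linear_combination this
    have hb0 : b = 0 := by
      have e1 := h1 0
      rw [hlin (0 + 1)] at e1
      simpa using e1
    refine ⟨fun z => by simp [hlin z, hb0], fun _ => ?_⟩
    have e2 := h2 0
    rw [hlin (0 + τ), hb0] at e2
    simpa using e2
  · have hne : 1 - c ≠ 0 := sub_ne_zero.2 (Ne.symm hc1)
    have hs : IsSect τ 0 c (fun z => f z - a / (1 - c)) := by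
      refine ⟨hd.sub_const _, fun z => by rw [h1], fun z => ?_⟩
      simp only [mult, Int.cast_zero, mul_zero, zero_mul, Complex.exp_zero, mul_one, h2]
      field_simp
      ring
    have h := (hs.eq_const_of_flat hτ hc).2 hc1
    exact ⟨fun z => (sub_eq_zero.1 (h z)).trans (sub_eq_zero.1 (h 0)).symm,
      fun e => absurd e hc1⟩

end Vale.Agent.P296.Theta
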