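import Vale.Agent.P296.Theta.Sections
import Vale.Agent.P296.Theta.Vanish

/-!
# P296: sections of degree `n` reach every jet of order `n - 2`

Products of translates of `sigma` give sections of every degree with a zero of any prescribed
order at a point, so the jets of order `n - 2` of sections of degree `n` are arbitrary.
-/

noncomputable section

namespace Vale.Agent.P296.Theta

open Complex
open scoped Real

variable {τ c : ℂ}

lemma mult_eq (n : ℕ) (c z : ℂ) : mult n c z = c * (coord z)⁻¹ ^ n := by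
  rw [mult, ← coord_neg, coord, ← Complex.exp_nat_mul]
  push_cast
  ring_nf

lemma mem_sections_iff {n : ℕ} {f : ℂ → ℂ} : f ∈ sections τ n c ↔ IsSect τ n c f :=
  ⟨fun ⟨h1, h2, h3⟩ => ⟨h1, h2, fun z => by rw [h3, mult_eq]⟩,
    fun h => ⟨h.diff, h.add_one, fun z => by rw [h.add_tau, mult_eq]⟩⟩

lemma mul_mem_sections {m n : ℕ} {c' : ℂ} {f g : ℂ → ℂ} (hf : f ∈ sections τ m c)
    (hg : g ∈ sections τ n c') : f * g ∈ sections τ (m + n) (c * c') := by
  rw [mem_sections_iff] at *
  exact_mod_cast hf.mul hg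

lemma sigma_translate_mem (hτ : 0 < τ.im) (a : ℂ) :
    (fun z => sigma τ (z - a)) ∈ sections τ 1 (-coord a) := by
  refine ⟨(differentiable_sigma hτ).comp (differentiable_id.sub_const a), fun z => ?_, fun z => ?_⟩
  · simp only [add_sub_right_comm, sigma_add_one]
  · simp only [add_sub_right_comm, sigma_add_tau hτ, sub_eq_add_neg z a, coord_add, coord_neg,
      mul_inv, inv_inv, pow_one]
    ring

lemma sigma_pow_mem (hτ : 0 < τ.im) (a : ℂ) (k : ℕ) :
    (fun z => sigma τ (z - a) ^ k) ∈ sections τ k ((-coord a) ^ k) := by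
  induction k with
  | zero => exact ⟨by simp, by simp, fun z => by simp⟩
  | succ k ih =>
    simp only [pow_succ]
    exact mul_mem_sections ih (sigma_translate_mem hτ a)

/-- A section of degree at least two without zero at a given point. -/
lemma exists_ne_zero' (hτ : 0 < τ.im) (hc : c ≠ 0) (z : ℂ) {n : ℕ} (hn : 2 ≤ n) :
    ∃ f ∈ sections τ n c, f z ≠ 0 := by
  obtain ⟨m, rfl⟩ : ∃ m, n = m + 2 := ⟨n - 2, by omega⟩
  obtain ⟨a, ha⟩ := exists_avoid τ {z} (Set.countable_singleton _)
  have hne : ∀ {b}, z - b ∉ lattice τ → sigma τ (z - b) ≠ 0 := fun h h' =>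
    h ((sigma_eq_zero_iff hτ).1 h')
  have hza : z - a ∉ lattice τ := fun h => ha z rfl (by rwa [← neg_mem_iff, neg_sub])
  obtain ⟨s, hs⟩ := exists_log (mul_ne_zero (neg_ne_zero.2 hc)
    (inv_ne_zero (pow_ne_zero m (neg_ne_zero.2 (coord_ne_zero a)))))
  obtain ⟨b, hb⟩ := exists_avoid τ {z, s - z} ((Set.countable_singleton _).insert _)
  have hcs : (-coord a) ^ m * (-coord b * -coord (s - b)) = c := by
    rw [neg_mul_neg, ← coord_add, add_sub_cancel, ← neg_neg (coord s), hs]
    field_simp [coord_ne_zero a]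
  refine ⟨_, hcs ▸ mul_mem_sections (sigma_pow_mem hτ a m)
    (mul_mem_sections (sigma_translate_mem hτ b) (sigma_translate_mem hτ (s - b))), ?_⟩
  refine mul_ne_zero (pow_ne_zero _ (hne hza)) (mul_ne_zero (hne fun h => hb z (Set.mem_insert _ _)
    (by rwa [← neg_mem_iff, neg_sub])) (hne fun h => hb (s - z) (Set.mem_insert_of_mem _ rfl) ?_))
  rwa [show b - (s - z) = z - (s - b) by ring]

/-- The first nonzero derivative of a function with a zero of order `k`. -/
lemma iteratedDeriv_pow_mul {u : ℂ → ℂ} {z : ℂ} (hu : Differentiable ℂ u) (hz : u z = 0) (k : ℕ) :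
    ∀ g : ℂ → ℂ, Differentiable ℂ g →
      (∀ j < k, iteratedDeriv j (fun x => u x ^ k * g x) z = 0) ∧
        iteratedDeriv k (fun x => u x ^ k * g x) z = k.factorial * deriv u z ^ k * g z := by
  induction k with
  | zero => exact fun g _ => ⟨fun j hj => absurd hj (Nat.not_lt_zero j), by simp⟩
  | succ k ih =>
    intro g hg
    have hu' : Differentiable ℂ (deriv u) := fun x => hu.analyticAt x |>.deriv.differentiableAt
    have hg' : Differentiable ℂ (deriv g) := fun x => hg.analyticAt x |>.deriv.differentiableAt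
    have hd : deriv (fun x => u x ^ (k + 1) * g x) =
        fun x => u x ^ k * ((k + 1) * deriv u x * g x + u x * deriv g x) := funext fun x => by
      have h := ((hu x).hasDerivAt.pow (k + 1)).mul (hg x).hasDerivAt
      have h' : HasDerivAt (fun x => u x ^ (k + 1) * g x) _ x := h
      rw [h'.deriv]
      push_cast
      simp only [Pi.pow_apply]
      ring
    obtain ⟨h1, h2⟩ := ih (fun x => (k + 1) * deriv u x * g x + u x * deriv g x) (by fun_prop)
    refine ⟨fun j hj => ?_, ?_⟩
    · rcases j with _ | j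
      · simp [hz]
      · rw [iteratedDeriv_succ', hd]
        exact h1 j (by omega)
    · rw [iteratedDeriv_succ', hd, h2, hz, Nat.factorial_succ]
      push_cast
      ring

/-- A section vanishing to order exactly `k` at a point. -/
theorem exists_order (hτ : 0 < τ.im) (hc : c ≠ 0) (z : ℂ) {n k : ℕ} (hk : k + 2 ≤ n) :
    ∃ f ∈ sections τ n c, (∀ j < k, iteratedDeriv j f z = 0) ∧ iteratedDeriv k f z ≠ 0 := by
  obtain ⟨m, rfl⟩ : ∃ m, n = k + m := ⟨n - k, by omega⟩
  have hp : (-coord z) ^ k ≠ 0 := pow_ne_zero _ (neg_ne_zero.2 (coord_ne_zero z))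
  obtain ⟨g, hg, hgz⟩ := exists_ne_zero' (τ := τ) (c := c / (-coord z) ^ k) hτ (div_ne_zero hc hp) z
    (n := m) (by omega)
  have hu : Differentiable ℂ fun x => sigma τ (x - z) :=
    (differentiable_sigma hτ).comp (differentiable_id.sub_const z)
  obtain ⟨h1, h2⟩ := iteratedDeriv_pow_mul hu (z := z) (by simp [sigma_zero]) k g hg.1
  refine ⟨(fun x => sigma τ (x - z) ^ k) * g, ?_, h1, ?_⟩
  · have := mul_mem_sections (sigma_pow_mem hτ z k) hg
    rwa [mul_div_cancel₀ c hp] at this
  · change iteratedDeriv k (fun x => sigma τ (x - z) ^ k * g x) z ≠ 0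
    rw [h2, deriv_comp_sub_const, sub_self]
    exact mul_ne_zero (mul_ne_zero (by exact_mod_cast k.factorial_ne_zero)
      (pow_ne_zero _ (deriv_sigma_zero_ne hτ))) hgz

lemma iteratedDeriv_add_smul {n : ℕ} {f g : ℂ → ℂ} (hf : f ∈ sections τ n c)
    (hg : g ∈ sections τ n c) (a : ℂ) (j : ℕ) (z : ℂ) :
    iteratedDeriv j (f + a • g) z = iteratedDeriv j f z + a * iteratedDeriv j g z := by
  rw [iteratedDeriv_add hf.1.contDiff.contDiffAt (hg.1.const_smul a).contDiff.contDiffAt,
    iteratedDeriv_const_smul_field, smul_eq_mul]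

/-- Jets of order `k` are arbitrary if `k + 2 ≤ n`. -/
theorem exists_jet (hτ : 0 < τ.im) (hc : c ≠ 0) (z : ℂ) {n : ℕ} :
    ∀ {k : ℕ}, k + 1 ≤ n → ∀ v : ℕ → ℂ,
      ∃ f ∈ sections τ n c, ∀ j < k, iteratedDeriv j f z = v j := by
  intro k
  induction k with
  | zero => exact fun _ v => ⟨0, (sections τ n c).zero_mem, fun j hj => absurd hj (Nat.not_lt_zero j)⟩
  | succ k ih =>
    intro hk v
    obtain ⟨f, hf, hfv⟩ := ih (by omega) v
    obtain ⟨g, hg, hg0, hgk⟩ := exists_order hτ hc z (n := n) (k := k) (by omega)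
    set a := (v k - iteratedDeriv k f z) / iteratedDeriv k g z
    refine ⟨f + a • g, add_mem hf (Submodule.smul_mem _ a hg), fun j hj => ?_⟩
    rw [iteratedDeriv_add_smul hf hg]
    rcases Nat.lt_succ_iff_lt_or_eq.1 hj with h | rfl
    · rw [hg0 j h, mul_zero, add_zero, hfv j h]
    · rw [div_mul_cancel₀ _ hgk, add_sub_cancel]

end Vale.Agent.P296.Theta
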