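import Vale.Agent.P296.Theta.DiffEq

/-!
# P296: systems of difference equations on the cylinder

`Solvable τ A`: every periodic entire `g` is `f (z + τ) - A z (f z)` for a periodic entire `f`,
that is, the bundle with factor of automorphy `A` has no first cohomology. It holds for positive
line bundles twisted by unipotent ones, and passes to triangular systems, to isomorphic systems and
to quotients with an entire right inverse.
-/

noncomputable section

namespace Vale.Agent.P296.Theta

open Complex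
open scoped Real

universe u v

variable {F : Type u} [NormedAddCommGroup F] [NormedSpace ℂ F]
variable {G : Type v} [NormedAddCommGroup G] [NormedSpace ℂ G]

/-- An entire function of period one. -/
def Per (g : ℂ → F) : Prop := Differentiable ℂ g ∧ ∀ z, g (z + 1) = g z

/-- Every periodic entire function is a difference for the factor `A`. -/
def Solvable (τ : ℂ) (A : ℂ → F →L[ℂ] F) : Prop :=
  ∀ g : ℂ → F, Per g → ∃ f : ℂ → F, Per f ∧ ∀ z, f (z + τ) - A z (f z) = g z

lemma Per.zero : Per (fun _ : ℂ => (0 : F)) := ⟨differentiable_const _, fun _ => rfl⟩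

lemma Per.add {f g : ℂ → F} (hf : Per f) (hg : Per g) : Per fun z => f z + g z :=
  ⟨hf.1.add hg.1, fun z => by simp only [hf.2, hg.2]⟩

lemma Per.sub {f g : ℂ → F} (hf : Per f) (hg : Per g) : Per fun z => f z - g z :=
  ⟨hf.1.sub hg.1, fun z => by simp only [hf.2, hg.2]⟩

lemma Per.smul {a : ℂ → ℂ} {f : ℂ → F} (ha : Per a) (hf : Per f) : Per fun z => a z • f z :=
  ⟨ha.1.smul hf.1, fun z => by simp only [ha.2, hf.2]⟩

lemma Per.apply {A : ℂ → F →L[ℂ] G} {f : ℂ → F} (hA : Per A) (hf : Per f) :
    Per fun z => A z (f z) :=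
  ⟨hA.1.clm_apply hf.1, fun z => by simp only [hA.2, hf.2]⟩

lemma Per.shift {f : ℂ → F} (hf : Per f) (a : ℂ) : Per fun z => f (z + a) :=
  ⟨hf.1.comp (differentiable_id.add_const a), fun z => by dsimp only; rw [add_right_comm, hf.2]⟩

lemma per_mult (n : ℤ) (c : ℂ) : Per (mult n c) := by
  refine ⟨by unfold mult; fun_prop, fun z => ?_⟩
  simp only [mult]
  rw [show -2 * π * I * (n : ℂ) * (z + 1) = -2 * π * I * n * z + ((-n : ℤ) : ℂ) * (2 * π * I) by
    push_cast; ring, Complex.exp_add, Complex.exp_int_mul_two_pi_mul_I, mul_one]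

variable [CompleteSpace F] {τ c : ℂ} {n : ℤ}

/-- Positive line bundles. -/
theorem solvable_mult (hτ : 0 < τ.im) (hn : 0 < n) (hc : c ≠ 0) :
    Solvable τ fun z => mult n c z • ContinuousLinearMap.id ℂ F := fun g hg => by
  obtain ⟨f, h1, h2, h3⟩ := exists_solution hτ hn hc hg.1 hg.2
  exact ⟨f, ⟨h1, h2⟩, fun z => by simpa using h3 z⟩

/-- Positive line bundles tensored with a unipotent one. -/
theorem solvable_unipotent (hτ : 0 < τ.im) (hn : 0 < n) (hc : c ≠ 0) {U : F →L[ℂ] F}
    (hU : IsNilpotent (U - 1)) : Solvable τ fun z => mult n c z • U := by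
  obtain ⟨k, hk⟩ := hU
  suffices H : ∀ j, j ≤ k → ∀ g : ℂ → F, Per g →
      ∃ f : ℂ → F, Per f ∧ ∀ z, f (z + τ) - mult n c z • U (f z) = ((U - 1) ^ (k - j)) (g z) by
    intro g hg
    obtain ⟨f, hf, he⟩ := H k le_rfl g hg
    exact ⟨f, hf, fun z => by simpa using he z⟩
  intro j
  induction j with
  | zero =>
    exact fun _ g _ => ⟨fun _ => 0, Per.zero, fun z => by simp [hk]⟩
  | succ j ih =>
    intro hj g hg
    obtain ⟨f₀, h1, h2, h3⟩ := exists_solution hτ hn hc hg.1 hg.2
    obtain ⟨h, hh, he⟩ := ih (Nat.le_of_succ_le hj) (fun z => mult n c z • f₀ z)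
      ((per_mult n c).smul ⟨h1, h2⟩)
    set P := (U - 1) ^ (k - (j + 1)) with hP
    have hP' : (U - 1) ^ (k - j) = (U - 1) * P := by
      rw [hP, ← pow_succ']; congr 1; omega
    refine ⟨fun z => P (f₀ z) + h z,
      (show Per fun z => P (f₀ z) from ⟨P.differentiable.comp h1, fun z => by simp only [h2]⟩).add hh,
      fun z => ?_⟩
    have e := he z
    have e0 := congrArg P (h3 z)
    rw [hP', map_smul] at e
    rw [map_sub, map_smul] at e0
    simp only [mul_apply_eq_comp, sub_apply, one_apply_eq_self, smul_sub] at e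
    rw [map_add, smul_add, ← e0]
    linear_combination (norm := module) e

omit [CompleteSpace F]

/-- A triangular system is solvable if its two diagonal parts are. -/
theorem Solvable.triangular {A : ℂ → F →L[ℂ] F} {D : ℂ → G →L[ℂ] G} {B : ℂ → G →L[ℂ] F}
    (hA : Solvable τ A) (hD : Solvable τ D) (hB : Per B) :
    Solvable τ fun z => ((A z).comp (ContinuousLinearMap.fst ℂ F G)
      + (B z).comp (ContinuousLinearMap.snd ℂ F G)).prod
        ((D z).comp (ContinuousLinearMap.snd ℂ F G)) := by
  intro g hg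
  obtain ⟨h, hh, heh⟩ := hD (fun z => (g z).2) ⟨hg.1.snd, fun z => by simp only [hg.2]⟩
  obtain ⟨f, hf, hef⟩ := hA (fun z => (g z).1 + B z (h z))
    (Per.add ⟨hg.1.fst, fun z => by simp only [hg.2]⟩ (hB.apply hh))
  refine ⟨fun z => (f z, h z), ⟨hf.1.prodMk hh.1, fun z => by simp only [hf.2, hh.2]⟩, fun z => ?_⟩
  refine Prod.ext ?_ ?_
  · simp only [Prod.fst_sub, ContinuousLinearMap.prod_apply, add_apply,
      ContinuousLinearMap.comp_apply, ContinuousLinearMap.coe_fst', ContinuousLinearMap.coe_snd']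
    linear_combination (norm := module) hef z
  · simpa using heh z

/-- A quotient with an entire periodic right inverse of a solvable system is solvable. -/
theorem Solvable.of_rightInverse {A : ℂ → F →L[ℂ] F} {A' : ℂ → G →L[ℂ] G}
    (hA : Solvable τ A) {π' : ℂ → F →L[ℂ] G} {s : ℂ → G →L[ℂ] F} (hπ : Per π') (hs : Per s)
    (hinv : ∀ z w, π' z (s z w) = w) (hcomm : ∀ z x, π' (z + τ) (A z x) = A' z (π' z x)) :
    Solvable τ A' := by
  intro g hg
  obtain ⟨f, hf, he⟩ := hA (fun z => s (z + τ) (g z)) ((hs.shift τ).apply hg)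
  refine ⟨fun z => π' z (f z), hπ.apply hf, fun z => ?_⟩
  have e := congrArg (π' (z + τ)) (he z)
  rwa [map_sub, hinv, hcomm] at e

end Vale.Agent.P296.Theta
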