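import Vale.Agent.P296.Theta.Basic
import Vale.Agent.P296.Theta.DiffSystem

/-!
# P296: periodic interpolation and a Bezout identity for two translates of `sigma`

A periodic entire function may take arbitrary values at the points `k τ`: damp the translates of
`sigma z / (1 - coord z)` by large powers of `coord`. Hence `sigma z` and `sigma (z + 1/3)`, and so
their cubes, generate the unit ideal of periodic entire functions.
-/

noncomputable section

namespace Vale.Agent.P296.Theta

open Complex Filter Topology Metric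
open scoped Real

variable {τ : ℂ}

/-- `sigma` without its factor `1 - coord z`. -/
def sigmaRest (τ z : ℂ) : ℂ := qProd (nome τ) (coord z) * qProd (nome τ) (coord z)⁻¹

lemma sigma_eq_mul_sigmaRest (z : ℂ) : sigma τ z = (1 - coord z) * sigmaRest τ z := by
  rw [sigma, sigmaRest, mul_assoc]

lemma differentiable_sigmaRest (hτ : 0 < τ.im) : Differentiable ℂ (sigmaRest τ) :=
  ((differentiable_qProd (norm_nome_lt_one hτ)).comp differentiable_coord).mul
    ((differentiable_qProd (norm_nome_lt_one hτ)).comp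
      (differentiable_coord.inv fun z => coord_ne_zero z))

lemma coord_add_one (z : ℂ) : coord (z + 1) = coord z := by
  rw [coord_add, (coord_eq_one_iff (z := 1)).2 ⟨1, by simp⟩, mul_one]

lemma norm_coord (z : ℂ) : ‖coord z‖ = Real.exp (-(2 * π * z.im)) := by
  rw [coord, Complex.norm_exp]
  simp

lemma norm_coord_zpow (z : ℂ) (N : ℤ) : ‖coord z ^ N‖ = Real.exp (-(2 * π * N * z.im)) := by
  rw [norm_zpow, norm_coord, ← Real.rpow_intCast, ← Real.exp_mul]
  ring_nf

lemma sigmaRest_zero_ne (hτ : 0 < τ.im) : sigmaRest τ 0 ≠ 0 := by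
  have hq := norm_nome_lt_one hτ
  have h1 : qProd (nome τ) 1 ≠ 0 := (qProd_ne_zero_iff hq 1).2 fun n hn => by
    rw [one_mul] at hn
    have := congrArg norm hn
    rw [norm_pow, norm_one] at this
    exact absurd this (pow_lt_one₀ (norm_nonneg _) hq n.succ_ne_zero).ne
  simp [sigmaRest, coord, h1]

lemma sigmaRest_int_mul (hτ : 0 < τ.im) {k : ℤ} (hk : k ≠ 0) : sigmaRest τ (k * τ) = 0 := by
  have h := (sigma_eq_zero_iff hτ).2 (mem_lattice.2 ⟨0, k, by simp⟩ : (k : ℂ) * τ ∈ lattice τ)
  rw [sigma_eq_mul_sigmaRest] at h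
  refine (mul_eq_zero.1 h).resolve_left (sub_ne_zero.2 fun e => ?_)
  obtain ⟨m, hm⟩ := coord_eq_one_iff.1 e.symm
  have h2 := congrArg Complex.im hm
  simp at h2
  rcases h2 with h2 | h2
  · exact hk h2
  · exact hτ.ne' h2

/-- A value at `k τ`, zero at the other multiples of `τ`. -/
def interpTerm (τ : ℂ) (v : ℤ → ℂ) (N : ℤ → ℕ) (k : ℤ) (z : ℂ) : ℂ :=
  v k / sigmaRest τ 0 * coord (z - k * τ) ^ (if 0 ≤ k then -(N k : ℤ) else (N k : ℤ)) *
    sigmaRest τ (z - k * τ)

/-- **Interpolation.** -/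
theorem exists_interp (hτ : 0 < τ.im) (v : ℤ → ℂ) : ∃ h : ℂ → ℂ, Per h ∧ ∀ k : ℤ, h (k * τ) = v k := by
  have hN : ∀ k : ℤ, ∃ N : ℕ, k ≠ 0 → ∀ z : ℂ, |z.re| ≤ 1 → |z.im| ≤ |(k : ℝ)| * τ.im / 2 →
      ‖v k / sigmaRest τ 0 * coord (z - k * τ) ^ (if 0 ≤ k then -(N : ℤ) else (N : ℤ)) *
        sigmaRest τ (z - k * τ)‖ ≤ (1 / 2) ^ k.natAbs := by
    intro k
    rcases eq_or_ne k 0 with rfl | hk
    · exact ⟨0, fun h => absurd rfl h⟩
    set L : ℝ := |(k : ℝ)| * τ.im / 2
    have hL : 0 < L := by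
      have : (k : ℝ) ≠ 0 := Int.cast_ne_zero.2 hk
      positivity
    obtain ⟨C, hC⟩ := ((isCompact_Icc (a := (-1 : ℝ)) (b := 1)).reProdIm
      (isCompact_Icc (a := -L) (b := L))).exists_bound_of_continuousOn
        (f := fun z => v k / sigmaRest τ 0 * sigmaRest τ (z - k * τ))
        (((differentiable_sigmaRest hτ).comp (differentiable_id.sub_const _)).const_mul _
          |>.continuous.continuousOn)
    obtain ⟨N, hN⟩ := exists_pow_lt_of_lt_one (x := (1 / 2) ^ k.natAbs / (|C| + 1))
      (y := Real.exp (-(2 * π * L))) (by positivity) (Real.exp_lt_one_iff.2 (by nlinarith [Real.pi_pos]))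
    refine ⟨N, fun _ z h1 h2 => ?_⟩
    have hz : z ∈ Set.Icc (-1 : ℝ) 1 ×ℂ Set.Icc (-L) L := ⟨abs_le.1 h1, abs_le.1 h2⟩
    have hpow : ‖coord (z - k * τ) ^ (if 0 ≤ k then -(N : ℤ) else (N : ℤ))‖ ≤
        Real.exp (-(2 * π * L)) ^ N := by
      rw [norm_coord_zpow, ← Real.exp_nat_mul, Real.exp_le_exp]
      have him : (z - k * τ).im = z.im - k * τ.im := by simp
      rw [him]
      have h3 := abs_le.1 h2
      have hp : 0 ≤ 2 * π * (N : ℝ) := by positivity
      split_ifs with h
      · have hk' : |(k : ℝ)| = k := abs_of_nonneg (Int.cast_nonneg h)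
        have : z.im - k * τ.im ≤ -L := by simp only [L, hk'] at h3 ⊢; linarith
        push_cast
        nlinarith [mul_le_mul_of_nonneg_left this hp]
      · have hk' : |(k : ℝ)| = -k := abs_of_nonpos (Int.cast_nonpos.2 (le_of_not_ge h))
        have : L ≤ z.im - k * τ.im := by simp only [L, hk'] at h3 ⊢; linarith
        push_cast
        nlinarith [mul_le_mul_of_nonneg_left this hp]
    rw [mul_right_comm, norm_mul]
    calc _ ≤ (|C| + 1) * ((1 / 2) ^ k.natAbs / (|C| + 1)) :=
          mul_le_mul ((hC z hz).trans ((le_abs_self C).trans (le_add_of_nonneg_right zero_le_one)))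
            (hpow.trans hN.le) (norm_nonneg _) (by positivity)
      _ = _ := by field_simp
  choose N hN using hN
  have hper : ∀ k z, interpTerm τ v N k (z + 1) = interpTerm τ v N k z := fun k z => by
    simp only [interpTerm, sigmaRest, show z + 1 - k * τ = z - k * τ + 1 by ring, coord_add_one]
  have hdiff : ∀ k, Differentiable ℂ (interpTerm τ v N k) := fun k => by
    have h1 : Differentiable ℂ fun z => coord (z - k * τ) ^ (if 0 ≤ k then -(N k : ℤ) else (N k : ℤ)) := by
      simp only [coord, ← Complex.exp_int_mul]; fun_prop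
    exact (h1.const_mul _).mul ((differentiable_sigmaRest hτ).comp (differentiable_id.sub_const _))
  have hbound : ∀ (k : ℤ) (z : ℂ), k ≠ 0 → |z.im| ≤ |(k : ℝ)| * τ.im / 2 →
      ‖interpTerm τ v N k z‖ ≤ (1 / 2) ^ k.natAbs := by
    intro k z hk h2
    have hp : Function.Periodic (interpTerm τ v N k) 1 := hper k
    have e : interpTerm τ v N k z = interpTerm τ v N k (z - (⌊z.re⌋ : ℤ)) := by
      simpa using (hp.sub_int_mul_eq (x := z) ⌊z.re⌋).symm
    rw [e]
    refine hN k hk _ ?_ (by simpa using h2)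
    simp only [sub_re, intCast_re]
    rw [abs_le]
    constructor <;> linarith [Int.floor_le z.re, Int.lt_floor_add_one z.re]
  have hu : Summable fun k : ℤ => (1 / 2 : ℝ) ^ k.natAbs := by
    refine Summable.of_nat_of_neg ?_ ?_ <;> simpa using summable_geometric_two
  have hloc : ∀ M : ℝ, TendstoUniformlyOn
      (fun s : Finset ℤ => fun z => ∑ k ∈ s, interpTerm τ v N k z)
      (fun z => ∑' k, interpTerm τ v N k z) atTop {z | |z.im| < M} := by
    intro M
    refine tendstoUniformlyOn_tsum_of_cofinite_eventually hu ?_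
    rw [Filter.eventually_cofinite]
    refine (Set.finite_Icc (-(⌈2 * M / τ.im⌉ + 1)) (⌈2 * M / τ.im⌉ + 1)).subset fun k hk => ?_
    by_contra hc
    refine hk fun z hz => ?_
    simp only [Set.mem_Icc, not_and_or, not_le] at hc
    have h1 := Int.le_ceil (2 * M / τ.im)
    have hkM : 2 * M / τ.im < |(k : ℝ)| := by
      rcases hc with hc | hc
      · have : (k : ℝ) < -((⌈2 * M / τ.im⌉ : ℝ) + 1) := by exact_mod_cast hc
        linarith [neg_le_abs (k : ℝ)]
      · have : (⌈2 * M / τ.im⌉ : ℝ) + 1 < (k : ℝ) := by exact_mod_cast hc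
        linarith [le_abs_self (k : ℝ)]
    have hk0 : k ≠ 0 := by
      rintro rfl
      have hM : 0 < M := (abs_nonneg z.im).trans_lt hz
      rw [Int.cast_zero, abs_zero, div_lt_iff₀ hτ] at hkM
      linarith
    refine hbound k z hk0 ?_
    rw [div_lt_iff₀ hτ] at hkM
    have : |z.im| < M := hz
    linarith
  refine ⟨fun z => ∑' k, interpTerm τ v N k z, ⟨fun z => ?_, fun z => tsum_congr (hper · z)⟩, ?_⟩
  · have hopen : IsOpen {w : ℂ | |w.im| < |z.im| + 1} :=
      isOpen_lt (continuous_abs.comp continuous_im) continuous_const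
    exact (((hloc _).tendstoLocallyUniformlyOn).differentiableOn (.of_forall fun s =>
      (Differentiable.fun_sum fun k _ => hdiff k).differentiableOn) hopen).differentiableAt
        (hopen.mem_nhds (lt_add_one |z.im|))
  · intro j
    simp only
    rw [tsum_eq_single j]
    · simp [interpTerm, sigmaRest_zero_ne hτ, coord]
    · intro k hk
      rw [interpTerm, ← sub_mul, ← Int.cast_sub, sigmaRest_int_mul hτ (sub_ne_zero.2 hk.symm), mul_zero]

/-- The zeros of `sigma` are simple. -/
lemma deriv_sigma_ne_zero (hτ : 0 < τ.im) {x : ℂ} (hx : x ∈ lattice τ) :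
    deriv (sigma τ) x ≠ 0 := by
  have h1 : ∀ y, deriv (sigma τ) (y + 1) = deriv (sigma τ) y := fun y => by
    rw [← deriv_comp_add_const, funext sigma_add_one]
  have h2 : ∀ y, y ∈ lattice τ →
      deriv (sigma τ) (y + τ) = -(coord y)⁻¹ * deriv (sigma τ) y := fun y hy => by
    have hc : DifferentiableAt ℂ (fun w => -(coord w)⁻¹) y :=
      ((differentiable_coord.inv coord_ne_zero).neg) y
    rw [← deriv_comp_add_const, funext (sigma_add_tau hτ),
      deriv_fun_mul hc (differentiable_sigma hτ y), (sigma_eq_zero_iff hτ).2 hy, mul_zero, zero_add]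
  obtain ⟨m, k, rfl⟩ := mem_lattice.1 hx
  have hp : Function.Periodic (deriv (sigma τ)) 1 := h1
  rw [add_comm, show deriv (sigma τ) (k * τ + m) = deriv (sigma τ) (k * τ) by
    simpa using hp.int_mul m (k * τ)]
  clear hx
  induction k using Int.induction_on with
  | zero => simpa using deriv_sigma_zero_ne hτ
  | succ k ih =>
    rw [show (((k : ℤ) + 1 : ℤ) : ℂ) * τ = ((k : ℤ) : ℂ) * τ + τ by push_cast; ring,
      h2 _ (mem_lattice.2 ⟨0, (k : ℤ), by simp⟩)]
    exact mul_ne_zero (neg_ne_zero.2 (inv_ne_zero (coord_ne_zero _))) ih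
  | pred k ih =>
    intro h0
    apply ih
    rw [show ((-(k : ℤ) : ℤ) : ℂ) * τ = ((-(k : ℤ) - 1 : ℤ) : ℂ) * τ + τ by push_cast; ring,
      h2 _ (mem_lattice.2 ⟨0, -(k : ℤ) - 1, by simp⟩), h0, mul_zero]

/-- A periodic entire function vanishing on the lattice is divisible by `sigma`. -/
lemma exists_sigma_mul (hτ : 0 < τ.im) {F : ℂ → ℂ} (hF : Per F)
    (h0 : ∀ x ∈ lattice τ, F x = 0) : ∃ a : ℂ → ℂ, Per a ∧ ∀ z, a z * sigma τ z = F z := by
  classical
  have hs := differentiable_sigma hτ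
  let a : ℂ → ℂ := fun z => if sigma τ z = 0 then deriv F z / deriv (sigma τ) z else F z / sigma τ z
  refine ⟨a, ⟨fun x => ?_, fun z => ?_⟩, fun z => ?_⟩
  · by_cases hx : sigma τ x = 0
    · have hl := (sigma_eq_zero_iff hτ).1 hx
      have hne : dslope (sigma τ) x x ≠ 0 := by rw [dslope_same]; exact deriv_sigma_ne_zero hτ hl
      have hd : ∀ {G : ℂ → ℂ}, Differentiable ℂ G → DifferentiableAt ℂ (dslope G x) x := fun hG =>
        ((differentiableOn_dslope univ_mem).2 hG.differentiableOn).differentiableAt univ_mem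
      refine ((hd hF.1).div (hd hs) hne).congr_of_eventuallyEq ?_
      filter_upwards [(hd hs).continuousAt.eventually_ne hne] with y hy
      simp only [a, Pi.div_apply]
      rcases eq_or_ne y x with rfl | hyx
      · rw [if_pos hx, dslope_same, dslope_same]
      · have e1 := sub_smul_dslope (sigma τ) x y
        have e2 := sub_smul_dslope F x y
        rw [hx, sub_zero, smul_eq_mul] at e1
        rw [h0 x hl, sub_zero, smul_eq_mul] at e2
        have hyx' := sub_ne_zero.2 hyx
        rw [← e1, if_neg (mul_ne_zero hyx' hy), ← e2, mul_div_mul_left _ _ hyx']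
    · refine ((hF.1 x).div (hs x) hx).congr_of_eventuallyEq ?_
      filter_upwards [hs.continuous.continuousAt.eventually_ne hx] with y hy
      simp [a, hy]
  · have e1 : deriv F (z + 1) = deriv F z := by rw [← deriv_comp_add_const, funext hF.2]
    have e2 : deriv (sigma τ) (z + 1) = deriv (sigma τ) z := by
      rw [← deriv_comp_add_const, funext sigma_add_one]
    simp only [a, sigma_add_one, hF.2, e1, e2]
  · simp only [a]
    split_ifs with h
    · rw [h, mul_zero, h0 z ((sigma_eq_zero_iff hτ).1 h)]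
    · rw [div_mul_cancel₀ _ h]

lemma sigma_third_ne_zero (hτ : 0 < τ.im) {x : ℂ} (hx : x ∈ lattice τ) :
    sigma τ (x + 1 / 3) ≠ 0 := fun h => by
  have h2 := (lattice τ).sub_mem ((sigma_eq_zero_iff hτ).1 h) hx
  rw [add_sub_cancel_left, mem_lattice] at h2
  obtain ⟨m, n, hmn⟩ := h2
  have hn := congrArg Complex.im hmn
  simp at hn
  rcases hn with hn | hn
  · subst hn
    simp only [Int.cast_zero, zero_mul, add_zero] at hmn
    have h3 : (3 * m : ℂ) = 1 := by rw [← hmn]; norm_num
    have h4 : 3 * m = 1 := by exact_mod_cast h3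
    omega
  · exact hτ.ne' hn

/-- **Bezout identity.** -/
theorem exists_bezout (hτ : 0 < τ.im) : ∃ a b : ℂ → ℂ, Per a ∧ Per b ∧
    ∀ z, a z * sigma τ z ^ 3 + b z * sigma τ (z + 1 / 3) ^ 3 = 1 := by
  obtain ⟨h, hh, hhv⟩ := exists_interp hτ fun k => (sigma τ (k * τ + 1 / 3))⁻¹
  have hσ : Per (sigma τ) := ⟨differentiable_sigma hτ, sigma_add_one⟩
  have hσ' : Per fun z => sigma τ (z + 1 / 3) :=
    ⟨(differentiable_sigma hτ).comp (differentiable_id.add_const _), fun z => by
      simp only [add_right_comm z 1, sigma_add_one]⟩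
  have hlin : ∀ z, 1 - h z * sigma τ (z + 1 / 3) = 0 ∨ z ∉ lattice τ := fun z => by
    refine or_iff_not_imp_right.2 fun hz => ?_
    rw [not_not] at hz
    obtain ⟨m, k, rfl⟩ := mem_lattice.1 hz
    have p1 : Function.Periodic h 1 := hh.2
    have p2 : Function.Periodic (fun z => sigma τ (z + 1 / 3)) 1 := hσ'.2
    have q1 : h ((k : ℂ) * τ + m) = h (k * τ) := by simpa using p1.int_mul m (k * τ)
    have q2 : sigma τ ((k : ℂ) * τ + m + 1 / 3) = sigma τ (k * τ + 1 / 3) := by
      simpa using p2.int_mul m (k * τ)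
    rw [add_comm (m : ℂ), q1, q2, hhv,
      inv_mul_cancel₀ (sigma_third_ne_zero hτ (mem_lattice.2 ⟨0, k, by simp⟩)), sub_self]
  obtain ⟨g, hg, hge⟩ := exists_sigma_mul hτ
    (F := fun z => 1 - h z * sigma τ (z + 1 / 3))
    ⟨(differentiable_const _).sub (hh.1.mul hσ'.1), fun z => by simp only [hh.2 z, hσ'.2 z]⟩
    fun x hx => (hlin x).resolve_right (not_not.2 hx)
  set s := fun z => sigma τ (z + 1 / 3)
  refine ⟨fun z => g z ^ 3 * (g z * sigma τ z) ^ 2 + 5 * g z ^ 3 * (g z * sigma τ z) * (h z * s z)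
      + 10 * g z ^ 3 * (h z * s z) ^ 2,
    fun z => h z ^ 3 * (h z * s z) ^ 2 + 5 * h z ^ 3 * (h z * s z) * (g z * sigma τ z)
      + 10 * h z ^ 3 * (g z * sigma τ z) ^ 2, ?_, ?_, fun z => ?_⟩
  · exact ⟨by
      have := hg.1; have := hh.1; have := hσ.1; have := hσ'.1
      fun_prop, fun z => by simp only [hg.2 z, hh.2 z, hσ.2 z, s, hσ'.2 z]⟩
  · exact ⟨by
      have := hg.1; have := hh.1; have := hσ.1; have := hσ'.1
      fun_prop, fun z => by simp only [hg.2 z, hh.2 z, hσ.2 z, s, hσ'.2 z]⟩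
  · have e : g z * sigma τ z + h z * s z = 1 := by rw [hge]; ring
    calc _ = (g z * sigma τ z + h z * s z) ^ 5 := by simp only [s]; ring
      _ = 1 := by rw [e, one_pow]

end Vale.Agent.P296.Theta
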