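import Vale.Agent.P296.Theta.DiffSystem

/-!
# P296: the difference equation in degree zero

Every periodic entire function is, up to a constant, a difference `f (z + τ) - f z`: on the
punctured plane the part holomorphic at zero minus its value there and the part vanishing at
infinity are both summed geometrically.
-/

noncomputable section

namespace Vale.Agent.P296.Theta

open Complex Filter Topology Metric
open scoped Real

universe u

variable {F : Type u} [NormedAddCommGroup F] [NormedSpace ℂ F] [CompleteSpace F]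
variable {g : ℂ → F} (hg : DifferentiableOn ℂ g {0}ᶜ)
include hg

/-- The part bounded at infinity decays there. -/
lemma exists_decay_minusPart {r : ℝ} (hr : 0 < r) :
    ∃ B, ∀ w : ℂ, r ≤ ‖w‖ → ‖minusPart g w‖ ≤ B / ‖w‖ := by
  obtain ⟨M, hM⟩ := exists_bound_minusPart hg hr
  obtain ⟨M₁, hM₁⟩ := (isCompact_sphere (0 : ℂ) 1).exists_bound_of_continuousOn
    (g_continuousOn_sphere hg one_pos)
  refine ⟨max (M * max r 2) (2 * M₁), fun w hw => ?_⟩
  have hw0 : 0 < ‖w‖ := hr.trans_le hw
  have hM0 : 0 ≤ M := (norm_nonneg _).trans (hM w hw)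
  rw [le_div_iff₀ hw0]
  by_cases h : ‖w‖ ≤ max r 2
  · exact ((mul_le_mul (hM w hw) h hw0.le hM0)).trans (le_max_left _ _)
  · have h2 : 2 < ‖w‖ := (le_max_right r 2).trans_lt (not_le.1 h)
    refine le_trans ?_ (le_max_right _ _)
    rw [minusPart_eq hg one_pos (by linarith), norm_neg, cauchyPart]
    have hb := circleIntegral.norm_two_pi_i_inv_smul_integral_le_of_norm_le_const zero_le_one
      (f := fun ζ => (ζ - w)⁻¹ • g ζ) (c := 0) (C := 2 / ‖w‖ * M₁) fun ζ hζ => by
        rw [norm_smul, norm_inv]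
        have h1 : ‖ζ‖ = 1 := by simpa using hζ
        have := norm_sub_norm_le w ζ
        rw [norm_sub_rev] at this
        refine mul_le_mul ?_ (hM₁ ζ hζ) (norm_nonneg _) (by positivity)
        rw [inv_le_comm₀ (by linarith) (by positivity), inv_div]
        linarith
    refine (mul_le_mul_of_nonneg_right hb hw0.le).trans_eq ?_
    field_simp

/-- **Degree zero on the punctured plane.** -/
theorem exists_coboundary_punctured {q : ℂ} (hq : ‖q‖ < 1) (hq0 : q ≠ 0) :
    ∃ (c : F) (f : ℂ → F), DifferentiableOn ℂ f {0}ᶜ ∧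
      ∀ w : ℂ, w ≠ 0 → f (q * w) - f w = g w - c := by
  have hP := differentiable_plusPart hg
  have hM := differentiableOn_minusPart hg
  set D := dslope (plusPart g) 0 with hD
  have hDd : Differentiable ℂ D := differentiableOn_univ.1
    ((Complex.differentiableOn_dslope Filter.univ_mem).2 hP.differentiableOn)
  have hPD : ∀ w, w • D w = plusPart g w - plusPart g 0 := fun w => by
    simpa using sub_smul_dslope (plusPart g) 0 w
  let tp : ℕ → ℂ → F := fun k w => (q ^ k * w) • D (q ^ k * w)
  let tm : ℕ → ℂ → F := fun k w => minusPart g ((q⁻¹) ^ (k + 1) * w)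
  have hbp : ∀ R : ℝ, ∃ u : ℕ → ℝ, Summable u ∧ ∀ k (w : ℂ), ‖w‖ ≤ R → ‖tp k w‖ ≤ u k := fun R => by
    obtain ⟨M, hMb⟩ := (isCompact_closedBall (0 : ℂ) R).exists_bound_of_continuousOn
      hDd.continuous.continuousOn
    refine ⟨fun k => ‖q‖ ^ k * (R * M),
      (summable_geometric_of_lt_one (norm_nonneg q) hq).mul_right _, fun k w hw => ?_⟩
    have hmem : q ^ k * w ∈ closedBall (0 : ℂ) R := by
      rw [mem_closedBall_zero_iff, norm_mul, norm_pow]
      exact (mul_le_of_le_one_left (norm_nonneg _) (pow_le_one₀ (norm_nonneg _) hq.le)).trans hw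
    simp only [tp, norm_smul, norm_mul, norm_pow, mul_assoc]
    exact mul_le_mul_of_nonneg_left (mul_le_mul hw (hMb _ hmem) (norm_nonneg _)
      ((norm_nonneg w).trans hw)) (by positivity)
  have hbm : ∀ r : ℝ, 0 < r → ∃ u : ℕ → ℝ, Summable u ∧ ∀ k (w : ℂ), r ≤ ‖w‖ → ‖tm k w‖ ≤ u k := by
    intro r hr
    obtain ⟨B, hB⟩ := exists_decay_minusPart hg hr
    refine ⟨fun k => ‖q‖ ^ k * (‖q‖ * B / r),
      (summable_geometric_of_lt_one (norm_nonneg q) hq).mul_right _, fun k w hw => ?_⟩
    have hone : (1 : ℝ) ≤ ‖q‖⁻¹ ^ (k + 1) :=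
      one_le_pow₀ ((one_le_inv₀ (norm_pos_iff.2 hq0)).2 hq.le)
    have hle : ‖q‖⁻¹ ^ (k + 1) * r ≤ ‖(q⁻¹) ^ (k + 1) * w‖ := by
      rw [norm_mul, norm_pow, norm_inv]
      exact mul_le_mul_of_nonneg_left hw (by positivity)
    have hmem : r ≤ ‖(q⁻¹) ^ (k + 1) * w‖ := (le_mul_of_one_le_left hr.le hone).trans hle
    have hB0 : 0 ≤ B := by
      have h := (norm_nonneg _).trans (hB _ hmem)
      rwa [le_div_iff₀ (hr.trans_le hmem), zero_mul] at h
    refine (hB _ hmem).trans ((div_le_div_of_nonneg_left hB0 (by positivity) hle).trans_eq ?_)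
    rw [inv_pow, pow_succ]
    field_simp
  refine ⟨plusPart g 0, fun w => (-∑' k, tp k w) + ∑' k, tm k w, fun w₀ hw₀ => ?_, fun w hw => ?_⟩
  · have hw0 : 0 < ‖w₀‖ := norm_pos_iff.2 hw₀
    obtain ⟨u, hu, hub⟩ := hbp (‖w₀‖ + 1)
    obtain ⟨v, hv, hvb⟩ := hbm _ (half_pos hw0)
    have h1 : DifferentiableAt ℂ (fun w => ∑' k, tp k w) w₀ :=
      (Complex.differentiableOn_tsum_of_summable_norm hu (U := ball 0 (‖w₀‖ + 1))
        (fun k => ((differentiable_id.const_mul _).smul
          (hDd.comp (differentiable_id.const_mul _))).differentiableOn) isOpen_ball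
        fun k w hw => hub k w (mem_ball_zero_iff.1 hw).le).differentiableAt
        (isOpen_ball.mem_nhds (by simp))
    have hUo : IsOpen {w : ℂ | ‖w₀‖ / 2 < ‖w‖} := isOpen_lt continuous_const continuous_norm
    have h2 : DifferentiableAt ℂ (fun w => ∑' k, tm k w) w₀ := by
      refine (Complex.differentiableOn_tsum_of_summable_norm hv (fun k w hw => ?_) hUo
        fun k w hw => hvb k w (le_of_lt hw)).differentiableAt
        (hUo.mem_nhds (show ‖w₀‖ / 2 < ‖w₀‖ by linarith))
      have hw' : w ≠ 0 := norm_pos_iff.1 ((half_pos hw0).trans hw)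
      exact ((hM.differentiableAt (isOpen_compl_singleton.mem_nhds
        (mul_ne_zero (pow_ne_zero _ (inv_ne_zero hq0)) hw'))).comp w
        (differentiableAt_id.const_mul _)).differentiableWithinAt
    exact (h1.neg.add h2).differentiableWithinAt
  · obtain ⟨u, hu, hub⟩ := hbp ‖w‖
    obtain ⟨v, hv, hvb⟩ := hbm _ (norm_pos_iff.2 hw)
    obtain ⟨v', hv', hvb'⟩ := hbm _ (norm_pos_iff.2 (mul_ne_zero hq0 hw))
    have hsP : Summable fun k => tp k w := Summable.of_norm_bounded hu fun k => hub k w le_rfl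
    have hsM : Summable fun k => tm k w := Summable.of_norm_bounded hv fun k => hvb k w le_rfl
    have hsM' : Summable fun k => tm k (q * w) :=
      Summable.of_norm_bounded hv' fun k => hvb' k _ le_rfl
    have ep : ∀ k, tp (k + 1) w = tp k (q * w) := fun k => by
      simp only [tp, pow_succ, mul_assoc]
    have em : ∀ k, tm (k + 1) (q * w) = tm k w := fun k => by
      simp only [tm, pow_succ _ (k + 1), mul_assoc, inv_mul_cancel_left₀ hq0]
    have e1 : ∑' k, tp k w = plusPart g w - plusPart g 0 + ∑' k, tp k (q * w) := by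
      rw [hsP.tsum_eq_zero_add]
      simp only [ep]
      simp [tp, hPD]
    have e2 : ∑' k, tm k (q * w) = minusPart g w + ∑' k, tm k w := by
      rw [hsM'.tsum_eq_zero_add]
      simp only [em]
      simp [tm, inv_mul_cancel_left₀ hq0]
    dsimp only
    rw [e1, e2, minusPart]
    abel

omit hg

/-- **Degree zero: every periodic entire function is a coboundary up to a constant.** -/
theorem exists_coboundary {τ : ℂ} (hτ : 0 < τ.im) {g : ℂ → F} (hg : Per g) :
    ∃ (c : F) (f : ℂ → F), Per f ∧ ∀ z, f (z + τ) - f z = g z - c := by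
  obtain ⟨G, hGd, heG⟩ := exists_punctured hg.1 hg.2
  set e : ℂ → ℂ := fun z => cexp (2 * π * I * z) with he
  have hqn : ‖e τ‖ < 1 := by
    simp only [e, Complex.norm_exp]
    refine Real.exp_lt_one_iff.2 ?_
    simp [Complex.mul_re, Complex.mul_im]
    positivity
  obtain ⟨c, f, hf, hfe⟩ := exists_coboundary_punctured (q := e τ) hGd hqn (Complex.exp_ne_zero _)
  have hed : Differentiable ℂ e := by simp only [e]; fun_prop
  refine ⟨c, fun z => f (e z), ⟨fun z =>
    (hf.differentiableAt (isOpen_compl_singleton.mem_nhds (show e z ≠ 0 from Complex.exp_ne_zero _))).comp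
      z (hed z), fun z => congrArg f ?_⟩, fun z => ?_⟩
  · simp only [e]
    rw [mul_add, mul_one, Complex.exp_add, Complex.exp_two_pi_mul_I, mul_one]
  · have h1 : e (z + τ) = e τ * e z := by simp only [e]; rw [← Complex.exp_add]; ring_nf
    dsimp only
    rw [h1, hfe (e z) (Complex.exp_ne_zero _), ← heG z]

end Vale.Agent.P296.Theta
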