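import Vale.Agent.P296.Theta.Series

/-!
# P296: the addition formula of the series

`series τ n k (z + w) * series τ n l (z - w)` splits into two products of series of degree `2 n`,
one factor in `z` with class `k + l`, one in `w` with class `k - l`.
-/

noncomputable section

namespace Vale.Agent.P296.Theta

open Complex
open scoped Real

variable {τ : ℂ} {n : ℕ}

/-- The term of the series. -/
def seriesTerm (τ : ℂ) (n : ℕ) (j : ℤ) (z : ℂ) (a : ℤ) : ℂ :=
  cexp (π * I * τ * ((j + n * a : ℤ) : ℂ) ^ 2 / n) * coord z ^ (j + n * a)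

lemma seriesTerm_eq_exp (j : ℤ) (z : ℂ) (a : ℤ) : seriesTerm τ n j z a =
    cexp (π * I * τ * ((j + n * a : ℤ) : ℂ) ^ 2 / n + ((j + n * a : ℤ) : ℂ) * (2 * π * I * z)) := by
  rw [seriesTerm, coord, ← Complex.exp_int_mul, ← Complex.exp_add]

lemma hasSum_seriesTerm (hτ : 0 < τ.im) (hn : 0 < n) (j : ℤ) (z : ℂ) :
    HasSum (seriesTerm τ n j z) (series τ n j z) :=
  hasSum_series hτ hn j z

lemma series_shift (hτ : 0 < τ.im) (hn : 0 < n) (j : ℤ) (z : ℂ) :
    series τ n (j + n) z = series τ n j z := by
  refine (hasSum_seriesTerm hτ hn _ z).unique ?_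
  refine ((Equiv.addRight (1 : ℤ)).hasSum_iff.2 (hasSum_seriesTerm hτ hn j z)).congr_fun fun a => ?_
  simp only [Function.comp_apply, seriesTerm, Equiv.coe_addRight]
  rw [show j + (n : ℤ) + n * a = j + n * (a + 1) by ring]

lemma series_shift_mul (hτ : 0 < τ.im) (hn : 0 < n) (j m : ℤ) :
    series τ n (j + n * m) = series τ n j := by
  have h : Function.Periodic (fun i => series τ n i) (n : ℤ) :=
    fun i => funext fun z => series_shift hτ hn i z
  simpa [mul_comm] using h.int_mul m j

lemma series_congr (hτ : 0 < τ.im) (hn : 0 < n) {j j' : ℤ} (h : j' % n = j % n) :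
    series τ n j' = series τ n j := by
  rw [← Int.emod_add_mul_ediv j' n, ← Int.emod_add_mul_ediv j n, series_shift_mul hτ hn,
    series_shift_mul hτ hn, h]

lemma series_neg (hτ : 0 < τ.im) (hn : 0 < n) (j : ℤ) (z : ℂ) :
    series τ n (-j) (-z) = series τ n j z := by
  refine (hasSum_seriesTerm hτ hn _ _).unique ?_
  refine ((Equiv.neg ℤ).hasSum_iff.2 (hasSum_seriesTerm hτ hn j z)).congr_fun fun a => ?_
  simp only [Function.comp_apply, Equiv.neg_apply, seriesTerm_eq_exp]
  congr 1
  push_cast
  ring

/-- The parity split of pairs of integers. -/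
def paritySplit : (ℤ × ℤ) ⊕ (ℤ × ℤ) → ℤ × ℤ
  | .inl (α, β) => (α + β, α - β)
  | .inr (α, β) => (α + β + 1, α - β)

lemma paritySplit_bijective : Function.Bijective paritySplit := by
  constructor
  · rintro (⟨α, β⟩ | ⟨α, β⟩) (⟨α', β'⟩ | ⟨α', β'⟩) h <;>
      simp only [paritySplit, Prod.mk.injEq] at h <;>
      first
        | (exfalso; omega)
        | (simp only [Sum.inl.injEq, Sum.inr.injEq, Prod.mk.injEq]; omega)
  · rintro ⟨a, b⟩
    rcases Int.even_or_odd (a + b) with ⟨r, hr⟩ | ⟨r, hr⟩
    · exact ⟨.inl (r, a - r), Prod.ext (by simp only [paritySplit]; omega) (by simp only [paritySplit]; omega)⟩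
    · exact ⟨.inr (r, a - r - 1), Prod.ext (by simp only [paritySplit]; omega) (by simp only [paritySplit]; omega)⟩

/-- **The addition formula.** -/
theorem series_add_formula (hτ : 0 < τ.im) (hn : 0 < n) (k l : ℤ) (z w : ℂ) :
    series τ n k (z + w) * series τ n l (z - w) =
      series τ (2 * n) (k + l) z * series τ (2 * n) (k - l) w +
        series τ (2 * n) (k + l + n) z * series τ (2 * n) (k - l + n) w := by
  have hn2 : 0 < 2 * n := by omega
  have hmul : ∀ {m m' : ℕ}, 0 < m → 0 < m' → ∀ (i i' : ℤ) (x x' : ℂ),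
      HasSum (fun p : ℤ × ℤ => seriesTerm τ m i x p.1 * seriesTerm τ m' i' x' p.2)
        (series τ m i x * series τ m' i' x') := fun {m m'} hm hm' i i' x x' =>
    (hasSum_seriesTerm hτ hm i x).mul (hasSum_seriesTerm hτ hm' i' x')
      (summable_mul_of_summable_norm (hasSum_seriesTerm hτ hm i x).summable.norm
        (hasSum_seriesTerm hτ hm' i' x').summable.norm)
  refine ((Equiv.ofBijective _ paritySplit_bijective).hasSum_iff.2
    (hmul hn hn k l (z + w) (z - w))).unique ?_
  have hn0 : (n : ℂ) ≠ 0 := by exact_mod_cast hn.ne'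
  refine HasSum.sum ((hmul hn2 hn2 (k + l) (k - l) z w).congr_fun fun p => ?_)
    ((hmul hn2 hn2 (k + l + n) (k - l + n) z w).congr_fun fun p => ?_) <;>
  · simp only [Function.comp_apply, Equiv.ofBijective_apply, paritySplit, seriesTerm_eq_exp,
      ← Complex.exp_add]
    congr 1
    push_cast
    field_simp
    ring

/-- Products of two series. -/
theorem series_mul (hτ : 0 < τ.im) (hn : 0 < n) (k l : ℤ) (z : ℂ) :
    series τ n k z * series τ n l z =
      series τ (2 * n) (k + l) z * series τ (2 * n) (k - l) 0 +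
        series τ (2 * n) (k + l + n) z * series τ (2 * n) (k - l + n) 0 := by
  simpa using series_add_formula hτ hn k l z 0

/-- Wronskians of two series. -/
theorem series_wronskian (hτ : 0 < τ.im) (hn : 0 < n) (k l : ℤ) (z : ℂ) :
    deriv (series τ n k) z * series τ n l z - series τ n k z * deriv (series τ n l) z =
      series τ (2 * n) (k + l) z * deriv (series τ (2 * n) (k - l)) 0 +
        series τ (2 * n) (k + l + n) z * deriv (series τ (2 * n) (k - l + n)) 0 := by
  have hn2 : 0 < 2 * n := by omega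
  have hd : ∀ {m : ℕ}, 0 < m → ∀ (i : ℤ) (x : ℂ),
      HasDerivAt (series τ m i) (deriv (series τ m i) x) x := fun hm i x =>
    (differentiable_series hτ hm i x).hasDerivAt
  have h1 := (hd hn k z).comp_of_eq 0 ((hasDerivAt_id (0 : ℂ)).const_add z) (by simp)
  have h2 := (hd hn l z).comp_of_eq 0 ((hasDerivAt_id (0 : ℂ)).const_sub z) (by simp)
  have h3 := ((hd hn2 (k - l) 0).const_mul (series τ (2 * n) (k + l) z)).fun_add
    ((hd hn2 (k - l + n) 0).const_mul (series τ (2 * n) (k + l + n) z))
  have e := (h1.fun_mul h2).unique (h3.congr_of_eventuallyEq (Filter.Eventually.of_forall fun w => by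
    simpa using series_add_formula hτ hn k l z w))
  simp only [Function.comp_apply, id_eq, add_zero, sub_zero, mul_neg, mul_one] at e
  linear_combination e

end Vale.Agent.P296.Theta
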