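import Mathlib

/-!
# P296: a theta function with simple zeros on a lattice

`sigma q z` is the product `(1 - w) * ∏ (1 - q ^ n * w) * (1 - q ^ n / w)`, `w = exp (2 π i z)`.
With `q = exp (2 π i τ)` and `0 < τ.im` it is entire, has period one, picks up the factor `-w⁻¹`
under the translation by `τ`, and vanishes to first order exactly on `ℤ + ℤ τ`.
-/

noncomputable section

namespace Vale.Agent.P296.Theta

open Complex Filter Topology
open scoped Real

/-- The product `∏ (1 - a * q ^ (n + 1))`. -/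
def qProd (q a : ℂ) : ℂ := ∏' n : ℕ, (1 - a * q ^ (n + 1))

/-- The exponential coordinate on the cylinder. -/
def coord (z : ℂ) : ℂ := Complex.exp (2 * π * I * z)

/-- The nome of a period. -/
def nome (τ : ℂ) : ℂ := coord τ

/-- The theta function with zeros on the lattice of periods `1` and `τ`. -/
def sigma (τ z : ℂ) : ℂ :=
  (1 - coord z) * qProd (nome τ) (coord z) * qProd (nome τ) (coord z)⁻¹

/-- The lattice of periods. -/
def lattice (τ : ℂ) : AddSubgroup ℂ where
  carrier := {z | ∃ m n : ℤ, z = m + n * τ}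
  zero_mem' := ⟨0, 0, by simp⟩
  add_mem' := by
    rintro a b ⟨m, n, rfl⟩ ⟨m', n', rfl⟩
    exact ⟨m + m', n + n', by push_cast; ring⟩
  neg_mem' := by
    rintro a ⟨m, n, rfl⟩
    exact ⟨-m, -n, by push_cast; ring⟩

lemma mem_lattice {τ z : ℂ} : z ∈ lattice τ ↔ ∃ m n : ℤ, z = m + n * τ := Iff.rfl

lemma coord_ne_zero (z : ℂ) : coord z ≠ 0 := Complex.exp_ne_zero _

lemma coord_add (z w : ℂ) : coord (z + w) = coord z * coord w := by
  rw [coord, coord, coord, ← Complex.exp_add]; ring_nf

lemma coord_neg (z : ℂ) : coord (-z) = (coord z)⁻¹ := by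
  rw [coord, coord, ← Complex.exp_neg]; ring_nf

lemma coord_int_mul (n : ℤ) (z : ℂ) : coord (n * z) = coord z ^ n := by
  rw [coord, coord, ← Complex.exp_int_mul]; ring_nf

lemma coord_eq_one_iff {z : ℂ} : coord z = 1 ↔ ∃ m : ℤ, z = m := by
  rw [coord, Complex.exp_eq_one_iff]
  refine exists_congr fun m => ⟨fun h => ?_, fun h => by rw [h]; ring⟩
  have h2 : (2 * (π : ℂ) * I) ≠ 0 := Complex.two_pi_I_ne_zero
  exact mul_left_cancel₀ h2 (by linear_combination h)

lemma norm_nome_lt_one {τ : ℂ} (hτ : 0 < τ.im) : ‖nome τ‖ < 1 := by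
  rw [nome, coord, Complex.norm_exp, Real.exp_lt_one_iff]
  have : (2 * (π : ℂ) * I * τ).re = -(2 * π * τ.im) := by simp
  rw [this]
  have := Real.pi_pos
  nlinarith

lemma summable_terms {q : ℂ} (hq : ‖q‖ < 1) (a : ℂ) :
    Summable fun n : ℕ => ‖-(a * q ^ (n + 1))‖ := by
  simpa [norm_mul, norm_pow] using
    ((summable_nat_add_iff 1).mpr (summable_geometric_of_lt_one (norm_nonneg q) hq)).mul_left ‖a‖

lemma multipliable_qProd {q : ℂ} (hq : ‖q‖ < 1) (a : ℂ) :
    Multipliable fun n : ℕ => 1 - a * q ^ (n + 1) := by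
  have h : Multipliable fun n : ℕ => 1 + -(a * q ^ (n + 1)) :=
    multipliable_one_add_of_summable (summable_terms hq a)
  exact h.congr fun n => (sub_eq_add_neg _ _).symm

lemma qProd_eq_mul {q : ℂ} (hq : ‖q‖ < 1) (a : ℂ) :
    qProd q a = (1 - a * q) * qProd q (a * q) := by
  have h : Multipliable fun n : ℕ => 1 - a * q ^ (n + 1 + 1) :=
    (multipliable_qProd hq (a * q)).congr fun n => by ring
  rw [qProd, tprod_eq_zero_mul' (f := fun n : ℕ => 1 - a * q ^ (n + 1)) h, qProd, pow_one]
  congr 1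
  exact tprod_congr fun n => by ring

lemma qProd_ne_zero_iff {q : ℂ} (hq : ‖q‖ < 1) (a : ℂ) :
    qProd q a ≠ 0 ↔ ∀ n : ℕ, a * q ^ (n + 1) ≠ 1 := by
  refine ⟨fun h n hn => h ?_, fun h => ?_⟩
  · exact tprod_of_exists_eq_zero ⟨n, by rw [hn, sub_self]⟩
  · have h1 : ∀ n : ℕ, 1 + -(a * q ^ (n + 1)) ≠ 0 := fun n => by
      rw [← sub_eq_add_neg, sub_ne_zero]; exact (h n).symm
    simpa [qProd, sub_eq_add_neg] using
      tprod_one_add_ne_zero_of_summable h1 (summable_terms hq a)

lemma differentiable_qProd {q : ℂ} (hq : ‖q‖ < 1) : Differentiable ℂ (qProd q) := by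
  intro a
  set R : ℝ := ‖a‖ + 1
  have hu : Summable fun n : ℕ => R * ‖q‖ ^ (n + 1) :=
    ((summable_nat_add_iff 1).mpr (summable_geometric_of_lt_one (norm_nonneg q) hq)).mul_left R
  have hK : IsOpen (Metric.ball (0 : ℂ) R) := Metric.isOpen_ball
  have h := Summable.hasProdLocallyUniformlyOn_nat_one_add
    (f := fun (n : ℕ) (b : ℂ) => -(b * q ^ (n + 1))) hK hu
    (Eventually.of_forall fun n b hb => by
      rw [norm_neg, norm_mul, norm_pow]
      exact mul_le_mul_of_nonneg_right (le_of_lt (by simpa using hb)) (by positivity))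
    (fun n => by fun_prop)
  have h2 : DifferentiableOn ℂ (fun b => ∏' n : ℕ, (1 + -(b * q ^ (n + 1)))) (Metric.ball 0 R) :=
    h.differentiableOn (Filter.Eventually.of_forall fun s => DifferentiableOn.fun_finsetProd
      fun n _ => ((differentiableOn_id.mul_const (q ^ (n + 1))).neg).const_add 1) hK
  have e : qProd q = fun b => ∏' n : ℕ, (1 + -(b * q ^ (n + 1))) := by
    funext b
    simp [qProd, sub_eq_add_neg]
  rw [e]
  exact h2.differentiableAt (hK.mem_nhds (by simp [R]))

variable {τ : ℂ}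

lemma differentiable_coord : Differentiable ℂ coord := by
  unfold coord; fun_prop

lemma differentiable_sigma (hτ : 0 < τ.im) : Differentiable ℂ (sigma τ) := by
  have hP := differentiable_qProd (norm_nome_lt_one hτ)
  exact ((differentiable_coord.const_sub 1).mul (hP.comp differentiable_coord)).mul
    (hP.comp (differentiable_coord.inv fun z => coord_ne_zero z))

lemma sigma_add_one (z : ℂ) : sigma τ (z + 1) = sigma τ z := by
  have h : coord (z + 1) = coord z := by
    rw [coord_add, (coord_eq_one_iff (z := 1)).2 ⟨1, by simp⟩, mul_one]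
  simp [sigma, h]

lemma sigma_add_tau (hτ : 0 < τ.im) (z : ℂ) :
    sigma τ (z + τ) = -(coord z)⁻¹ * sigma τ z := by
  have hq := norm_nome_lt_one hτ
  have hw := coord_ne_zero z
  have hq0 : nome τ ≠ 0 := coord_ne_zero τ
  rw [sigma, sigma, coord_add, show coord τ = nome τ from rfl, qProd_eq_mul hq (coord z),
    qProd_eq_mul hq (coord z * nome τ)⁻¹]
  have e1 : (coord z * nome τ)⁻¹ * nome τ = (coord z)⁻¹ := by field_simp
  rw [e1]
  field_simp
  ring

lemma sigma_neg (z : ℂ) : sigma τ (-z) = -(coord z)⁻¹ * sigma τ z := by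
  have hw := coord_ne_zero z
  rw [sigma, sigma, coord_neg, inv_inv]
  field_simp
  ring

lemma sigma_zero : sigma τ 0 = 0 := by simp [sigma, coord]

/-- The zeros of `sigma` are exactly the periods. -/
theorem sigma_eq_zero_iff (hτ : 0 < τ.im) {z : ℂ} : sigma τ z = 0 ↔ z ∈ lattice τ := by
  have hq := norm_nome_lt_one hτ
  have key : ∀ k : ℤ, coord z = nome τ ^ k ↔ ∃ m : ℤ, z = m + k * τ := fun k => by
    rw [nome, ← coord_int_mul, ← mul_inv_eq_one₀ (coord_ne_zero _), ← coord_neg, ← coord_add,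
      coord_eq_one_iff]
    exact exists_congr fun m => ⟨fun h => by linear_combination h, fun h => by linear_combination h⟩
  have hP : ∀ a : ℂ, qProd (nome τ) a = 0 ↔ ∃ n : ℕ, a * nome τ ^ (n + 1) = 1 := fun a => by
    rw [← not_iff_not, ← ne_eq, qProd_ne_zero_iff hq]
    push Not
    rfl
  rw [sigma, mul_eq_zero, mul_eq_zero, hP, hP, mem_lattice]
  constructor
  · rintro ((h | ⟨n, hn⟩) | ⟨n, hn⟩)
    · obtain ⟨m, hm⟩ := (key 0).1 (by rw [zpow_zero]; exact (sub_eq_zero.1 h).symm)
      exact ⟨m, 0, hm⟩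
    · obtain ⟨m, hm⟩ := (key (-((n : ℤ) + 1))).1 (by
        rw [zpow_neg]
        exact eq_inv_of_mul_eq_one_left (by exact_mod_cast hn))
      exact ⟨m, _, hm⟩
    · obtain ⟨m, hm⟩ := (key ((n : ℤ) + 1)).1 (by
        rw [← inv_inv (coord z)]
        exact (eq_inv_of_mul_eq_one_right (by exact_mod_cast hn)).symm)
      exact ⟨m, _, hm⟩
  · rintro ⟨m, k, hk⟩
    have h := (key k).2 ⟨m, hk⟩
    have hq0 : nome τ ≠ 0 := coord_ne_zero τ
    obtain ⟨n, rfl | rfl⟩ := k.eq_nat_or_neg
    · rcases n with _ | n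
      · left; left; simp [h]
      · right
        refine ⟨n, ?_⟩
        rw [h, zpow_natCast, inv_mul_cancel₀ (pow_ne_zero _ hq0)]
    · rcases n with _ | n
      · left; left; simp [h]
      · left; right
        refine ⟨n, ?_⟩
        rw [h, zpow_neg, zpow_natCast, inv_mul_cancel₀ (pow_ne_zero _ hq0)]

/-- The zero at the origin is simple. -/
theorem deriv_sigma_zero_ne (hτ : 0 < τ.im) : deriv (sigma τ) 0 ≠ 0 := by
  have hq := norm_nome_lt_one hτ
  have hP := differentiable_qProd hq
  have h1 : qProd (nome τ) 1 ≠ 0 := (qProd_ne_zero_iff hq 1).2 fun n hn => by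
    rw [one_mul] at hn
    have := congrArg norm hn
    rw [norm_pow, norm_one] at this
    exact absurd this (pow_lt_one₀ (norm_nonneg _) hq n.succ_ne_zero).ne
  have hc : HasDerivAt coord (2 * π * I) 0 := by
    have h0 := ((hasDerivAt_id (0 : ℂ)).const_mul (2 * (π : ℂ) * I)).cexp
    simp only [id, mul_one, mul_zero, Complex.exp_zero, one_mul] at h0
    exact h0
  have hc0 : coord 0 = 1 := by simp [coord]
  have hF : HasDerivAt (fun z => qProd (nome τ) (coord z) * qProd (nome τ) (coord z)⁻¹)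
      (deriv (fun z => qProd (nome τ) (coord z) * qProd (nome τ) (coord z)⁻¹) 0) 0 :=
    (((hP.comp differentiable_coord).mul
      (hP.comp (differentiable_coord.inv fun z => coord_ne_zero z))).differentiableAt).hasDerivAt
  have h := (hc.const_sub 1).mul hF
  have e : sigma τ = fun z => (1 - coord z) *
      (qProd (nome τ) (coord z) * qProd (nome τ) (coord z)⁻¹) := by
    funext z; rw [sigma, mul_assoc]
  have h' : HasDerivAt (fun z => (1 - coord z) *
      (qProd (nome τ) (coord z) * qProd (nome τ) (coord z)⁻¹)) _ 0 := h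
  rw [e, h'.deriv]
  simp [hc0, h1, Real.pi_ne_zero]

end Vale.Agent.P296.Theta
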