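import Vale.Agent.P296.Theta.Vanish

/-!
# P296: the difference equation of a line bundle of positive degree

For `n > 0` the equation `f (z + τ) - c exp (-2 π i n z) f z = g z` is solvable in periodic entire
functions for every periodic entire `g`: on the punctured plane `g` splits into a part holomorphic
at `0` and a part bounded at infinity, and each part is summed by a theta type series. The values
may lie in any complex Banach space, so parameters are allowed.
-/

noncomputable section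

namespace Vale.Agent.P296.Theta

open Complex Filter Topology Metric
open scoped Real

universe u

variable {F : Type u} [NormedAddCommGroup F] [NormedSpace ℂ F]

/-! ### The two parts of a function on the punctured plane -/

/-- The Cauchy integral over the circle of radius `R`. -/
def cauchyPart (g : ℂ → F) (R : ℝ) (w : ℂ) : F :=
  (2 * π * I : ℂ)⁻¹ • ∮ ζ in C(0, R), (ζ - w)⁻¹ • g ζ

/-- The part holomorphic at zero. -/
def plusPart (g : ℂ → F) (w : ℂ) : F := cauchyPart g (‖w‖ + 1) w

/-- The part bounded at infinity. -/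
def minusPart (g : ℂ → F) (w : ℂ) : F := g w - plusPart g w

section split

variable [CompleteSpace F] {g : ℂ → F} (hg : DifferentiableOn ℂ g {0}ᶜ) {w : ℂ} {r R : ℝ}
include hg

omit [CompleteSpace F] in
lemma g_continuousOn_sphere (hR : 0 < R) : ContinuousOn g (sphere 0 R) :=
  hg.continuousOn.mono fun ζ hζ h0 => by simp_all

omit [CompleteSpace F] in
lemma cauchyPart_eq (hw : ‖w‖ < r) (hR : r ≤ R) : cauchyPart g R w = cauchyPart g r w := by
  have hr : 0 < r := (norm_nonneg w).trans_lt hw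
  have hd : ∀ ζ : ℂ, ζ ≠ 0 → ‖w‖ < ‖ζ‖ →
      DifferentiableAt ℂ (fun ζ => (ζ - w)⁻¹ • g ζ) ζ := fun ζ h0 h1 =>
    ((differentiableAt_id.sub_const w).inv
      (sub_ne_zero.2 fun e => h1.ne (congrArg norm e.symm))).smul
      (hg.differentiableAt (isOpen_compl_singleton.mem_nhds h0))
  refine congrArg _ (Complex.circleIntegral_eq_of_differentiable_on_annulus_off_countable hr hR
    Set.countable_empty (fun ζ hζ => ?_) fun ζ hζ => ?_)
  · obtain ⟨-, h2⟩ := hζ
    rw [mem_ball_zero_iff, not_lt] at h2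
    exact (hd ζ (norm_pos_iff.1 (hr.trans_le h2)) (hw.trans_le h2)).continuousAt.continuousWithinAt
  · obtain ⟨⟨-, h2⟩, -⟩ := hζ
    rw [mem_closedBall_zero_iff, not_le] at h2
    exact hd ζ (norm_pos_iff.1 (hr.trans h2)) (hw.trans h2)

omit [CompleteSpace F] in
lemma plusPart_eq (hw : ‖w‖ < R) : plusPart g w = cauchyPart g R w := by
  rcases le_total R (‖w‖ + 1) with h | h
  · exact cauchyPart_eq hg hw h
  · exact (cauchyPart_eq hg (lt_add_one _) h).symm

lemma differentiable_plusPart : Differentiable ℂ (plusPart g) := fun w => by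
  set R : NNReal := ‖w‖₊ + 1 with hR
  have hR0 : (0 : ℝ) < R := by simp [hR]; positivity
  have hmem : w ∈ ball (0 : ℂ) R := by simp [hR]
  have h := hasFPowerSeriesOn_cauchy_integral
    ((g_continuousOn_sphere hg hR0).circleIntegrable hR0.le) (c := 0) (by exact_mod_cast hR0)
  have h1 := (h.analyticAt_of_mem (y := w) (by
    rw [Metric.eball_coe]; exact hmem)).differentiableAt
  refine h1.congr_of_eventuallyEq ?_
  filter_upwards [isOpen_ball.mem_nhds hmem] with y hy
  exact plusPart_eq hg (mem_ball_zero_iff.1 hy)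

omit [CompleteSpace F] in
lemma circleIntegrable_cauchy (hr : 0 < r) (hw : ‖w‖ ≠ r) :
    CircleIntegrable (fun ζ => (ζ - w)⁻¹ • g ζ) 0 r ∧
      CircleIntegrable (fun ζ => (ζ - w)⁻¹ • g w) 0 r := by
  have h : ContinuousOn (fun ζ : ℂ => (ζ - w)⁻¹) (sphere 0 r) :=
    (continuousOn_id.sub continuousOn_const).inv₀ fun ζ hζ e =>
      hw (by rw [← (sub_eq_zero.1 e : ζ = w)]; simpa using hζ)
  exact ⟨(h.smul (g_continuousOn_sphere hg hr)).circleIntegrable hr.le,
    (h.smul continuousOn_const).circleIntegrable hr.le⟩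

/-- Cauchy's formula in an annulus. -/
lemma minusPart_eq (hr : 0 < r) (hw : r < ‖w‖) : minusPart g w = -cauchyPart g r w := by
  set R := ‖w‖ + 1 with hRdef
  have hR : 0 < R := by positivity
  have hwR : ‖w‖ < R := lt_add_one _
  have hw0 : w ≠ 0 := norm_pos_iff.1 (hr.trans hw)
  have hne : (2 * π * I : ℂ) ≠ 0 := Complex.two_pi_I_ne_zero
  have hds : DifferentiableOn ℂ (dslope g w) {0}ᶜ :=
    (Complex.differentiableOn_dslope (isOpen_compl_singleton.mem_nhds hw0)).2 hg
  have h1 : (∮ ζ in C(0, R), dslope g w ζ) = ∮ ζ in C(0, r), dslope g w ζ := by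
    refine Complex.circleIntegral_eq_of_differentiable_on_annulus_off_countable hr
      (hw.le.trans hwR.le) Set.countable_empty (hds.continuousOn.mono fun ζ hζ => ?_) fun ζ hζ =>
      hds.differentiableAt (isOpen_compl_singleton.mem_nhds ?_)
    · obtain ⟨-, h2⟩ := hζ
      rw [mem_ball_zero_iff, not_lt] at h2
      exact norm_pos_iff.1 (hr.trans_le h2)
    · obtain ⟨⟨-, h2⟩, -⟩ := hζ
      rw [mem_closedBall_zero_iff, not_le] at h2
      exact norm_pos_iff.1 (hr.trans h2)
  have hexp : ∀ ρ, 0 < ρ → ‖w‖ ≠ ρ → (∮ ζ in C(0, ρ), dslope g w ζ) =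
      (∮ ζ in C(0, ρ), (ζ - w)⁻¹ • g ζ) - (∮ ζ in C(0, ρ), (ζ - w)⁻¹) • g w := fun ρ hρ hwρ => by
    rw [← circleIntegral.integral_smul_const, ← circleIntegral.integral_sub
      (circleIntegrable_cauchy hg hρ hwρ).1 (circleIntegrable_cauchy hg hρ hwρ).2]
    refine circleIntegral.integral_congr hρ.le fun ζ hζ => ?_
    rw [dslope_of_ne _ fun e => hwρ (by rw [← e]; simpa using hζ), slope_def_module, ← smul_sub]
  have h0 : (∮ ζ in C(0, r), (ζ - w)⁻¹) = 0 := by
    have hd : ∀ ζ : ℂ, ‖ζ‖ ≤ r → DifferentiableAt ℂ (fun ζ => (ζ - w)⁻¹) ζ := fun ζ hζ =>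
      (differentiableAt_id.sub_const w).inv
        (sub_ne_zero.2 fun e => hw.not_ge (by rw [← show ‖ζ‖ = ‖w‖ from congrArg norm e]; exact hζ))
    refine Complex.circleIntegral_eq_zero_of_differentiable_on_off_countable hr.le
      Set.countable_empty (fun ζ hζ => (hd ζ (mem_closedBall_zero_iff.1 hζ)).continuousAt.continuousWithinAt)
      fun ζ hζ => hd ζ (mem_ball_zero_iff.1 hζ.1).le
  rw [hexp R hR hwR.ne, hexp r hr hw.ne', h0, zero_smul, sub_zero,
    circleIntegral.integral_sub_inv_of_mem_ball (mem_ball_zero_iff.2 hwR), sub_eq_iff_eq_add] at h1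
  rw [minusPart, plusPart, cauchyPart, cauchyPart, h1, smul_add, inv_smul_smul₀ hne]
  abel

lemma differentiableOn_minusPart : DifferentiableOn ℂ (minusPart g) {0}ᶜ :=
  hg.sub (differentiable_plusPart hg).differentiableOn

lemma exists_bound_minusPart (hr : 0 < r) : ∃ M, ∀ w : ℂ, r ≤ ‖w‖ → ‖minusPart g w‖ ≤ M := by
  obtain ⟨M₁, hM₁⟩ := (isCompact_sphere (0 : ℂ) 1).exists_bound_of_continuousOn
    (g_continuousOn_sphere hg one_pos)
  have hK : IsCompact (closedBall (0 : ℂ) (max r 2) \ ball 0 r) :=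
    (isCompact_closedBall _ _).diff isOpen_ball
  obtain ⟨M₂, hM₂⟩ := hK.exists_bound_of_continuousOn
    ((differentiableOn_minusPart hg).continuousOn.mono fun ζ hζ => by
      have h2 := hζ.2
      rw [mem_ball_zero_iff, not_lt] at h2
      exact norm_pos_iff.1 (hr.trans_le h2))
  refine ⟨max M₁ M₂, fun w hw => ?_⟩
  by_cases h : ‖w‖ ≤ max r 2
  · exact (hM₂ w ⟨mem_closedBall_zero_iff.2 h, by rw [mem_ball_zero_iff, not_lt]; exact hw⟩).trans
      (le_max_right _ _)
  · have h2 : 2 < ‖w‖ := (le_max_right r 2).trans_lt (not_le.1 h)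
    rw [minusPart_eq hg one_pos (by linarith), norm_neg, cauchyPart]
    refine (circleIntegral.norm_two_pi_i_inv_smul_integral_le_of_norm_le_const zero_le_one
      (C := M₁) fun ζ hζ => ?_).trans (by rw [one_mul]; exact le_max_left _ _)
    rw [norm_smul, norm_inv]
    refine (mul_le_of_le_one_left (norm_nonneg _) (inv_le_one_of_one_le₀ ?_)).trans (hM₁ ζ hζ)
    have := norm_sub_norm_le w ζ
    rw [norm_sub_rev] at this
    have h1 : ‖ζ‖ = 1 := by simpa using hζ
    linarith

end split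

/-! ### The series -/

/-- Triangular numbers. -/
def tri : ℕ → ℕ
  | 0 => 0
  | k + 1 => tri k + (k + 1)

lemma summable_tri {ρ : ℝ} (h0 : 0 ≤ ρ) (h1 : ρ < 1) (A : ℝ) :
    Summable fun k : ℕ => ρ ^ tri k * A ^ k := by
  refine summable_of_ratio_norm_eventually_le (r := 1 / 2) (by norm_num) ?_
  have hlim : Tendsto (fun k : ℕ => ρ ^ (k + 1) * |A|) atTop (𝓝 0) := by
    simpa using ((tendsto_pow_atTop_nhds_zero_of_lt_one h0 h1).comp
      (tendsto_add_atTop_nat 1)).mul_const |A|
  filter_upwards [hlim.eventually_le_const (by norm_num : (0 : ℝ) < 1 / 2)] with k hk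
  rw [show ρ ^ tri (k + 1) * A ^ (k + 1) = ρ ^ (k + 1) * A * (ρ ^ tri k * A ^ k) by
    rw [tri, pow_add, pow_succ A]; ring, norm_mul]
  refine mul_le_mul_of_nonneg_right ?_ (norm_nonneg _)
  rwa [norm_mul, norm_pow, Real.norm_eq_abs, Real.norm_eq_abs, abs_of_nonneg h0]

variable {q c : ℂ} {m : ℕ}

/-- The terms of the series of the part holomorphic at zero. -/
def termP (q c : ℂ) (m : ℕ) (g : ℂ → F) (k : ℕ) (w : ℂ) : F :=
  ((c⁻¹) ^ (k + 1) * q ^ (m * tri k) * w ^ (m * (k + 1))) • plusPart g (q ^ k * w)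

/-- The terms of the series of the part bounded at infinity. -/
def termM (q c : ℂ) (m : ℕ) (g : ℂ → F) (k : ℕ) (w : ℂ) : F :=
  (c ^ k * q ^ (m * tri k) * (w⁻¹) ^ (m * k)) • minusPart g ((q⁻¹) ^ (k + 1) * w)

variable [CompleteSpace F] {g : ℂ → F} (hg : DifferentiableOn ℂ g {0}ᶜ) (hq : ‖q‖ < 1)
  (hm : 0 < m)
include hg hq hm

lemma exists_bound_termP (R : ℝ) :
    ∃ u : ℕ → ℝ, Summable u ∧ ∀ k (w : ℂ), ‖w‖ ≤ R → ‖termP q c m g k w‖ ≤ u k := by
  obtain ⟨M, hM⟩ := (isCompact_closedBall (0 : ℂ) R).exists_bound_of_continuousOn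
    (differentiable_plusPart hg).continuous.continuousOn
  refine ⟨fun k => ‖c⁻¹‖ * R ^ m * M * ((‖q‖ ^ m) ^ tri k * (‖c⁻¹‖ * R ^ m) ^ k),
    (summable_tri (by positivity) (pow_lt_one₀ (norm_nonneg _) hq hm.ne') _).mul_left _,
    fun k w hw => ?_⟩
  have hmem : q ^ k * w ∈ closedBall (0 : ℂ) R := by
    rw [mem_closedBall_zero_iff, norm_mul, norm_pow]
    exact (mul_le_of_le_one_left (norm_nonneg _) (pow_le_one₀ (norm_nonneg _) hq.le)).trans hw
  rw [termP, norm_smul, norm_mul, norm_mul, norm_pow, norm_pow, norm_pow]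
  calc ‖c⁻¹‖ ^ (k + 1) * ‖q‖ ^ (m * tri k) * ‖w‖ ^ (m * (k + 1)) * ‖plusPart g (q ^ k * w)‖
      ≤ ‖c⁻¹‖ ^ (k + 1) * ‖q‖ ^ (m * tri k) * R ^ (m * (k + 1)) * M := by
        refine mul_le_mul (mul_le_mul_of_nonneg_left (pow_le_pow_left₀ (norm_nonneg _) hw _)
          (by positivity)) (hM _ hmem) (norm_nonneg _) ?_
        have := (norm_nonneg w).trans hw
        positivity
    _ = _ := by simp only [pow_succ, pow_mul, mul_pow, mul_add, pow_add, mul_one]; ring

lemma exists_bound_termM (hq0 : q ≠ 0) {r : ℝ} (hr : 0 < r) :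
    ∃ u : ℕ → ℝ, Summable u ∧ ∀ k (w : ℂ), r ≤ ‖w‖ → ‖termM q c m g k w‖ ≤ u k := by
  obtain ⟨M, hM⟩ := exists_bound_minusPart hg hr
  refine ⟨fun k => M * ((‖q‖ ^ m) ^ tri k * (‖c‖ * (r⁻¹) ^ m) ^ k),
    (summable_tri (by positivity) (pow_lt_one₀ (norm_nonneg _) hq hm.ne') _).mul_left _,
    fun k w hw => ?_⟩
  have hmem : r ≤ ‖(q⁻¹) ^ (k + 1) * w‖ := by
    rw [norm_mul, norm_pow, norm_inv]
    exact hw.trans (le_mul_of_one_le_left (norm_nonneg _)
      (one_le_pow₀ ((one_le_inv₀ (norm_pos_iff.2 hq0)).2 hq.le)))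
  have hM0 : 0 ≤ M := (norm_nonneg _).trans (hM _ hmem)
  rw [termM, norm_smul, norm_mul, norm_mul, norm_pow, norm_pow, norm_pow, norm_inv]
  calc ‖c‖ ^ k * ‖q‖ ^ (m * tri k) * ‖w‖⁻¹ ^ (m * k) * ‖minusPart g ((q⁻¹) ^ (k + 1) * w)‖
      ≤ ‖c‖ ^ k * ‖q‖ ^ (m * tri k) * r⁻¹ ^ (m * k) * M := by
        refine mul_le_mul (mul_le_mul_of_nonneg_left (pow_le_pow_left₀ (by positivity)
          (inv_anti₀ hr hw) _) (by positivity)) (hM _ hmem) (norm_nonneg _) (by positivity)
    _ = _ := by simp only [pow_mul, mul_pow]; ring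

/-- **The difference equation on the punctured plane.** -/
theorem exists_solution_punctured (hq0 : q ≠ 0) (hc : c ≠ 0) :
    ∃ f : ℂ → F, DifferentiableOn ℂ f {0}ᶜ ∧
      ∀ w : ℂ, w ≠ 0 → f (q * w) - (c * (w ^ m)⁻¹) • f w = g w := by
  have hP := differentiable_plusPart hg
  have hM := differentiableOn_minusPart hg
  refine ⟨fun w => (-∑' k, termP q c m g k w) + ∑' k, termM q c m g k w, fun w₀ hw₀ => ?_,
    fun w hw => ?_⟩
  · have hw0 : 0 < ‖w₀‖ := norm_pos_iff.2 hw₀
    obtain ⟨u, hu, hub⟩ := exists_bound_termP (c := c) hg hq hm (‖w₀‖ + 1)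
    obtain ⟨v, hv, hvb⟩ := exists_bound_termM (c := c) hg hq hm hq0 (half_pos hw0)
    have h1 : DifferentiableAt ℂ (fun w => ∑' k, termP q c m g k w) w₀ := by
      refine (Complex.differentiableOn_tsum_of_summable_norm hu
        (U := ball 0 (‖w₀‖ + 1)) (fun k => ?_) isOpen_ball fun k w hw =>
          hub k w (mem_ball_zero_iff.1 hw).le).differentiableAt
        (isOpen_ball.mem_nhds (by simp))
      unfold termP
      exact (((differentiable_id.pow _).const_mul _).smul
        (hP.comp (differentiable_id.const_mul _))).differentiableOn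
    have hUo : IsOpen {w : ℂ | ‖w₀‖ / 2 < ‖w‖} := isOpen_lt continuous_const continuous_norm
    have h2 : DifferentiableAt ℂ (fun w => ∑' k, termM q c m g k w) w₀ := by
      refine (Complex.differentiableOn_tsum_of_summable_norm hv
        (fun k w hw => ?_) hUo fun k w hw => hvb k w (le_of_lt hw)).differentiableAt
        (hUo.mem_nhds (show ‖w₀‖ / 2 < ‖w₀‖ by linarith))
      have hw' : w ≠ 0 := norm_pos_iff.1 ((half_pos hw0).trans hw)
      unfold termM
      refine DifferentiableAt.differentiableWithinAt ?_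
      exact (((differentiableAt_id.inv hw').pow _).const_mul _).smul
        ((hM.differentiableAt (isOpen_compl_singleton.mem_nhds
          (mul_ne_zero (pow_ne_zero _ (inv_ne_zero hq0)) hw'))).comp w
          (differentiableAt_id.const_mul _))
    exact (h1.neg.add h2).differentiableWithinAt
  · obtain ⟨u, hu, hub⟩ := exists_bound_termP (c := c) hg hq hm ‖w‖
    obtain ⟨v, hv, hvb⟩ := exists_bound_termM (c := c) hg hq hm hq0 (norm_pos_iff.2 hw)
    have hqw : 0 < ‖q * w‖ := norm_pos_iff.2 (mul_ne_zero hq0 hw)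
    obtain ⟨v', hv', hvb'⟩ := exists_bound_termM (c := c) hg hq hm hq0 hqw
    have hsP : Summable fun k => termP q c m g k w :=
      Summable.of_norm_bounded hu fun k => hub k w le_rfl
    have hsM : Summable fun k => termM q c m g k w :=
      Summable.of_norm_bounded hv fun k => hvb k w le_rfl
    have hsM' : Summable fun k => termM q c m g k (q * w) :=
      Summable.of_norm_bounded hv' fun k => hvb' k _ le_rfl
    have hwm : w ^ m ≠ 0 := pow_ne_zero m hw
    have ep : ∀ k, (c * (w ^ m)⁻¹) • termP q c m g (k + 1) w = termP q c m g k (q * w) := by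
      intro k
      simp only [termP, smul_smul]
      refine congrArg₂ (· • ·) ?_ (congrArg _ ?_)
      · rw [show tri (k + 1) = tri k + (k + 1) from rfl]
        simp only [pow_succ, mul_add, pow_add, mul_one, mul_pow, pow_mul, inv_pow]
        field_simp
      · rw [pow_succ]; ring
    have em : ∀ k, termM q c m g (k + 1) (q * w) = (c * (w ^ m)⁻¹) • termM q c m g k w := by
      intro k
      simp only [termM, smul_smul]
      refine congrArg₂ (· • ·) ?_ (congrArg _ ?_)
      · rw [show tri (k + 1) = tri k + (k + 1) from rfl]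
        simp only [pow_succ, mul_add, pow_add, mul_one, mul_pow, pow_mul, inv_pow, mul_inv]
        field_simp
      · rw [pow_succ _ (k + 1), mul_assoc, inv_mul_cancel_left₀ hq0]
    have e1 : (c * (w ^ m)⁻¹) • ∑' k, termP q c m g k w =
        plusPart g w + ∑' k, termP q c m g k (q * w) := by
      rw [hsP.tsum_eq_zero_add, smul_add,
        ← ((summable_nat_add_iff 1).2 hsP).tsum_const_smul (c * (w ^ m)⁻¹)]
      simp only [ep]
      congr 1
      simp only [termP, tri, smul_smul, mul_zero, pow_zero, one_mul, zero_add, pow_one, mul_one]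
      rw [show c * (w ^ m)⁻¹ * (c⁻¹ * w ^ m) = 1 by field_simp, one_smul]
    have e2 : ∑' k, termM q c m g k (q * w) =
        minusPart g w + (c * (w ^ m)⁻¹) • ∑' k, termM q c m g k w := by
      rw [hsM'.tsum_eq_zero_add, ← hsM.tsum_const_smul (c * (w ^ m)⁻¹)]
      simp only [em]
      congr 1
      simp [termM, tri, inv_mul_cancel_left₀ hq0]
    dsimp only
    rw [smul_add, smul_neg, e1, e2, minusPart]
    abel

omit hg hq hm

omit [CompleteSpace F] in
/-- A periodic entire function is a holomorphic function of `exp (2 π i z)`. -/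
theorem exists_punctured {g : ℂ → F} (hgd : Differentiable ℂ g) (hg1 : ∀ z, g (z + 1) = g z) :
    ∃ G : ℂ → F, DifferentiableOn ℂ G {0}ᶜ ∧ ∀ z, G (cexp (2 * π * I * z)) = g z := by
  let e : ℂ → ℂ := fun z => cexp (2 * π * I * z)
  have hne : (2 * π * I : ℂ) ≠ 0 := Complex.two_pi_I_ne_zero
  let G : ℂ → F := fun w => g (Complex.log w / (2 * π * I))
  have hper : ∀ z z', e z = e z' → g z = g z' := fun z z' hz => by
    obtain ⟨k, hk⟩ := Complex.exp_eq_exp_iff_exists_int.1 hz
    have hzk : z = z' + (k : ℂ) * 1 := mul_left_cancel₀ hne (by linear_combination hk)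
    rw [hzk]
    exact (Function.Periodic.int_mul hg1 k) z'
  have heG : ∀ z, G (e z) = g z := fun z => hper _ _ (by
    simp only [e]
    rw [mul_div_cancel₀ _ hne, Complex.exp_log (Complex.exp_ne_zero _)])
  have hGd : DifferentiableOn ℂ G {0}ᶜ := fun w₀ hw₀ => by
    have hw₀' : w₀ ≠ 0 := hw₀
    let φ : ℂ → ℂ := fun w => (Complex.log w₀ + Complex.log (w / w₀)) / (2 * π * I)
    have h1 : DifferentiableAt ℂ (fun w => g (φ w)) w₀ := by
      refine (hgd _).comp w₀ (((differentiableAt_id.div_const w₀).clog ?_).const_add _ |>.div_const _)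
      simp [div_self hw₀', Complex.one_mem_slitPlane]
    refine (h1.congr_of_eventuallyEq ?_).differentiableWithinAt
    filter_upwards [isOpen_compl_singleton.mem_nhds hw₀] with w hw
    have hw' : w ≠ 0 := hw
    refine hper _ _ ?_
    simp only [e, φ]
    rw [mul_div_cancel₀ _ hne, mul_div_cancel₀ _ hne, Complex.exp_log hw', Complex.exp_add,
      Complex.exp_log hw₀', Complex.exp_log (div_ne_zero hw' hw₀'), mul_div_cancel₀ _ hw₀']
  exact ⟨G, hGd, heG⟩

/-- **The difference equation in the additive variable.** -/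
theorem exists_solution {τ : ℂ} (hτ : 0 < τ.im) {n : ℤ} (hn : 0 < n) (hc : c ≠ 0) {g : ℂ → F}
    (hgd : Differentiable ℂ g) (hg1 : ∀ z, g (z + 1) = g z) :
    ∃ f : ℂ → F, Differentiable ℂ f ∧ (∀ z, f (z + 1) = f z) ∧
      ∀ z, f (z + τ) - mult n c z • f z = g z := by
  let e : ℂ → ℂ := fun z => cexp (2 * π * I * z)
  obtain ⟨G, hGd, heG⟩ := exists_punctured hgd hg1
  have hqn : ‖e τ‖ < 1 := by
    simp only [e, Complex.norm_exp]
    refine Real.exp_lt_one_iff.2 ?_
    simp [Complex.mul_re, Complex.mul_im]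
    positivity
  obtain ⟨m, rfl⟩ := Int.eq_ofNat_of_zero_le hn.le
  have hm : 0 < m := by exact_mod_cast hn
  obtain ⟨f, hf, hfe⟩ := exists_solution_punctured (q := e τ) hGd hqn hm (Complex.exp_ne_zero _) hc
  have hed : Differentiable ℂ e := by simp only [e]; fun_prop
  refine ⟨fun z => f (e z), fun z => ?_, fun z => congrArg f ?_, fun z => ?_⟩
  · exact ((hf.differentiableAt (isOpen_compl_singleton.mem_nhds (show e z ≠ 0 from Complex.exp_ne_zero _))).comp z
      (hed z))
  · simp only [e]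
    rw [mul_add, mul_one, Complex.exp_add, Complex.exp_two_pi_mul_I, mul_one]
  · have h1 : e (z + τ) = e τ * e z := by
      simp only [e]; rw [← Complex.exp_add]; ring_nf
    have h2 : mult (m : ℤ) c z = c * (e z ^ m)⁻¹ := by
      simp only [mult, e, ← Complex.exp_nat_mul, ← Complex.exp_neg]
      push_cast
      ring_nf
    dsimp only
    rw [h1, h2, hfe _ (Complex.exp_ne_zero _), heG]

end Vale.Agent.P296.Theta
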