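import Vale.Agent.P296.Theta.DiffSystem
import Vale.Agent.P296.Theta.Vanish

/-!
# P296: interpolation by sections of a positive line bundle times a unipotent one

If the sections of the line bundle of degree `n > 0` realise every family of jets at finitely many
prescribed points and orders, so do the vector valued sections of its product with any unipotent
bundle: lift along the powers of the nilpotent part, using that first cohomology vanishes.
-/

noncomputable section

namespace Vale.Agent.P296.Theta

open Complex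
open scoped Real

universe u

variable {F : Type u} [NormedAddCommGroup F] [NormedSpace ℂ F] [CompleteSpace F]
variable {τ c : ℂ} {n : ℤ}

/-- Sections of the line bundle of degree `n` times the flat bundle of `U`. -/
structure IsSectU (τ : ℂ) (n : ℤ) (c : ℂ) (U : F →L[ℂ] F) (f : ℂ → F) : Prop where
  per : Per f
  add_tau : ∀ z, f (z + τ) = mult n c z • U (f z)

lemma iteratedDeriv_clm_comp {E G : Type*} [NormedAddCommGroup E] [NormedSpace ℂ E]
    [CompleteSpace E] [NormedAddCommGroup G] [NormedSpace ℂ G] (L : E →L[ℂ] G) {f : ℂ → E}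
    (hf : Differentiable ℂ f) : ∀ k, iteratedDeriv k (fun z => L (f z)) =
      fun z => L (iteratedDeriv k f z) := by
  intro k
  induction k with
  | zero => simp
  | succ k ih =>
    funext z
    rw [iteratedDeriv_succ, ih, iteratedDeriv_succ]
    exact (L.hasFDerivAt.comp_hasDerivAt z
      (((hf.contDiff (n := ⊤)).differentiable_iteratedDeriv k (by simp)) z).hasDerivAt).deriv

omit [CompleteSpace F] in
lemma IsSectU.zero (U : F →L[ℂ] F) : IsSectU τ n c U fun _ => 0 :=
  ⟨Per.zero, fun z => by simp⟩

omit [CompleteSpace F] in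
lemma IsSectU.sub {U : F →L[ℂ] F} {f g : ℂ → F} (hf : IsSectU τ n c U f)
    (hg : IsSectU τ n c U g) : IsSectU τ n c U fun z => f z - g z :=
  ⟨hf.per.sub hg.per, fun z => by rw [hf.add_tau, hg.add_tau, map_sub, smul_sub]⟩

/-- **Interpolation.** -/
theorem exists_sectU_interp (hτ : 0 < τ.im) (hn : 0 < n) (hc : c ≠ 0) {U : F →L[ℂ] F}
    (hU : IsNilpotent (U - 1)) {ι : Type*} [Fintype ι] [DecidableEq ι] (p : ι → ℂ) (o : ι → ℕ)
    (hs : ∀ i, ∃ s, IsSect τ n c s ∧ ∀ j, iteratedDeriv (o j) s (p j) = if j = i then 1 else 0)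
    (w : ι → F) :
    ∃ f, IsSectU τ n c U f ∧ ∀ i, iteratedDeriv (o i) f (p i) = w i := by
  obtain ⟨k, hk⟩ := hU
  choose s hs hsv using hs
  suffices H : ∀ j, j ≤ k → ∀ w : ι → F,
      ∃ f, IsSectU τ n c U f ∧ ∀ i, iteratedDeriv (o i) f (p i) = ((U - 1) ^ (k - j)) (w i) by
    simpa using H k le_rfl w
  intro j
  induction j with
  | zero =>
    exact fun _ w => ⟨fun _ => 0, IsSectU.zero U, fun i => by simp [hk]⟩
  | succ j ih =>
    intro hj w
    set P := (U - 1) ^ (k - (j + 1)) with hP
    have hP' : (U - 1) ^ (k - j) = (U - 1) * P := by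
      rw [hP, ← pow_succ']; congr 1; omega
    have hcomm : Commute P U := by
      have h := (((Commute.refl (U - 1)).add_right (Commute.one_right _)).pow_left (k - (j + 1)))
      rwa [sub_add_cancel] at h
    let S : ℂ → F := fun z => ∑ i, s i z • w i
    have hS : Per S :=
      ⟨Differentiable.fun_sum fun i _ => (hs i).diff.smul_const (w i),
        fun z => Finset.sum_congr rfl fun i _ => by rw [(hs i).add_one]⟩
    have hSt : ∀ z, S (z + τ) = mult n c z • S z := fun z => by
      simp only [S, Finset.smul_sum, smul_smul]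
      exact Finset.sum_congr rfl fun i _ => by rw [(hs i).add_tau]
    have hSv : ∀ i, iteratedDeriv (o i) S (p i) = w i := fun i => by
      have e : S = fun z => (∑ l, ((ContinuousLinearMap.proj l : (ι → ℂ) →L[ℂ] ℂ)).smulRight (w l))
          (fun l => s l z) := funext fun z => by simp [S]
      rw [e, iteratedDeriv_clm_comp _ (differentiable_pi.2 fun l => (hs l).diff)]
      have hl : ∀ l, iteratedDeriv (o i) (fun z l => s l z) (p i) l =
          iteratedDeriv (o i) (s l) (p i) := fun l =>
        (congrFun (iteratedDeriv_clm_comp (ContinuousLinearMap.proj l : (ι → ℂ) →L[ℂ] ℂ)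
          (differentiable_pi.2 fun l => (hs l).diff) (o i)) (p i)).symm
      simp [hl, hsv, ite_smul]
    obtain ⟨g, hg, hge⟩ := solvable_unipotent hτ hn hc ⟨k, hk⟩ (fun z => mult n c z • S z)
      ((per_mult n c).smul hS)
    obtain ⟨f', hf', hf'v⟩ := ih (Nat.le_of_succ_le hj) (fun i => iteratedDeriv (o i) g (p i))
    set Q := (U - 1) ^ (k - j) with hQ
    have hQU : Commute Q U := by
      have h := (((Commute.refl (U - 1)).add_right (Commute.one_right _)).pow_left (k - j))
      rwa [sub_add_cancel] at h
    have happ : ∀ x, P (U x) = U (P x) ∧ Q (U x) = U (Q x) ∧ Q x = U (P x) - P x := fun x =>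
      ⟨DFunLike.congr_fun hcomm.eq x, DFunLike.congr_fun hQU.eq x, by rw [hP']; rfl⟩
    have hmain : IsSectU τ n c U fun z => P (S z) + Q (g z) := by
      refine ⟨Per.add ⟨P.differentiable.comp hS.1, fun z => congrArg P (hS.2 z)⟩
        ⟨Q.differentiable.comp hg.1, fun z => congrArg Q (hg.2 z)⟩, fun z => ?_⟩
      have e := congrArg Q (hge z)
      simp only [map_sub, map_smul, smul_apply, (happ _).2.1] at e
      rw [hSt, map_smul, map_add, smul_add]
      rw [(happ (S z)).2.2] at e
      linear_combination (norm := module) e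
    refine ⟨fun z => (P (S z) + Q (g z)) - f' z, hmain.sub hf', fun i => ?_⟩
    have d0 : Differentiable ℂ fun z => (S z, g z) := hS.1.prodMk hg.1
    have e1 : (fun z => (P (S z) + Q (g z)) - f' z) = fun z =>
        ((P.comp (ContinuousLinearMap.fst ℂ F F) + Q.comp (ContinuousLinearMap.snd ℂ F F)).comp
          (ContinuousLinearMap.fst ℂ (F × F) F) - ContinuousLinearMap.snd ℂ (F × F) F)
            ((S z, g z), f' z) := funext fun z => by simp
    rw [e1, iteratedDeriv_clm_comp _ (d0.prodMk hf'.per.1)]
    have d1 : Differentiable ℂ fun z => ((S z, g z), f' z) := d0.prodMk hf'.per.1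
    have a1 := congrFun (iteratedDeriv_clm_comp (ContinuousLinearMap.fst ℂ (F × F) F) d1 (o i)) (p i)
    have a2 := congrFun (iteratedDeriv_clm_comp (ContinuousLinearMap.snd ℂ (F × F) F) d1 (o i)) (p i)
    have b1 := congrFun (iteratedDeriv_clm_comp (ContinuousLinearMap.fst ℂ F F) d0 (o i)) (p i)
    have b2 := congrFun (iteratedDeriv_clm_comp (ContinuousLinearMap.snd ℂ F F) d0 (o i)) (p i)
    simp only [ContinuousLinearMap.coe_fst', ContinuousLinearMap.coe_snd'] at a1 a2 b1 b2
    simp only [sub_apply, add_apply, ContinuousLinearMap.comp_apply,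
      ContinuousLinearMap.coe_fst', ContinuousLinearMap.coe_snd', ← a1, ← a2, ← b1, ← b2, hSv,
      hf'v, hQ]
    abel

end Vale.Agent.P296.Theta
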