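import Vale.Agent.P296.Theta.Basic

/-!
# P296: sections of line bundles on a complex torus

A section of degree `n` is an entire function of period one which picks up the factor `c * w⁻ⁿ`
under the translation by `τ`. They form a space of dimension at most `n`. For `n = 3` they have no
common zero, separate the points of the torus and separate tangents, so a basis embeds the torus
in a projective space.
-/

noncomputable section

namespace Vale.Agent.P296.Theta

open Complex Filter Topology
open scoped Real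

variable {τ c : ℂ}

/-- The sections of the line bundle of degree `n` with factor `c`. -/
def sections (τ : ℂ) (n : ℕ) (c : ℂ) : Submodule ℂ (ℂ → ℂ) where
  carrier := {f | Differentiable ℂ f ∧ (∀ z, f (z + 1) = f z) ∧
    ∀ z, f (z + τ) = c * (coord z)⁻¹ ^ n * f z}
  zero_mem' := ⟨differentiable_const 0, by simp, by simp⟩
  add_mem' := fun ⟨h1, h2, h3⟩ ⟨g1, g2, g3⟩ => ⟨h1.add g1,
    fun z => by simp only [Pi.add_apply, h2, g2],
    fun z => by simp only [Pi.add_apply, h3, g3]; ring⟩
  smul_mem' := fun a f ⟨h1, h2, h3⟩ => ⟨h1.const_smul a,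
    fun z => by simp only [Pi.smul_apply, h2],
    fun z => by simp only [Pi.smul_apply, h3, smul_eq_mul]; ring⟩

lemma mem_sections {n : ℕ} {f : ℂ → ℂ} : f ∈ sections τ n c ↔ Differentiable ℂ f ∧
    (∀ z, f (z + 1) = f z) ∧ ∀ z, f (z + τ) = c * (coord z)⁻¹ ^ n * f z := Iff.rfl

/-- The Fourier coefficients of a function of period one, on the real axis. -/
def coef (f : ℂ → ℂ) (k : ℤ) : ℂ := ∫ x in (0:ℝ)..1, f x * coord x ^ (-k)

lemma differentiable_twist {f : ℂ → ℂ} (hf : Differentiable ℂ f) (k : ℤ) :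
    Differentiable ℂ fun z => f z * coord z ^ k :=
  hf.mul fun z => (differentiable_coord z).zpow (Or.inl (coord_ne_zero z))

lemma integral_line {g : ℂ → ℂ} (hg : Differentiable ℂ g) (hper : ∀ z, g (z + 1) = g z) (a : ℂ) :
    ∫ x in (0:ℝ)..1, g (x + a) = ∫ x in (0:ℝ)..1, g x := by
  have hper' : Function.Periodic (fun x : ℝ => g (x + a.im * I)) 1 := fun x => by
    show g (((x + 1 : ℝ) : ℂ) + a.im * I) = _
    rw [Complex.ofReal_add, Complex.ofReal_one, add_right_comm, hper]
  have h1 : ∫ x in (0:ℝ)..1, g (x + a) = ∫ x in (0:ℝ)..1, g (x + a.im * I) := by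
    have e : ∀ x : ℝ, (x : ℂ) + a = ((x + a.re : ℝ) : ℂ) + a.im * I := fun x => by
      apply Complex.ext <;> simp
    simp_rw [e]
    rw [intervalIntegral.integral_comp_add_right (fun x : ℝ => g (x + a.im * I)) a.re, zero_add,
      add_comm (1 : ℝ)]
    simpa using hper'.intervalIntegral_add_eq a.re 0
  have h2 := Complex.integral_boundary_rect_eq_zero_of_differentiableOn g 0 (1 + a.im * I)
    hg.differentiableOn
  simp at h2
  have h3 : ∀ y : ℝ, g (1 + y * I) = g (y * I) := fun y => by rw [add_comm, hper]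
  simp [h3] at h2
  rw [h1]
  exact (sub_eq_zero.1 h2).symm

lemma coef_recursion {n : ℕ} {f : ℂ → ℂ} (hf : f ∈ sections τ n c) (k : ℤ) :
    coef f k = c * nome τ ^ (-k) * coef f (k + n) := by
  obtain ⟨hd, hp, hq⟩ := hf
  have hper : ∀ z, f (z + 1) * coord (z + 1) ^ (-k) = f z * coord z ^ (-k) := fun z => by
    rw [hp, coord_add, (coord_eq_one_iff (z := 1)).2 ⟨1, by simp⟩, mul_one]
  have h := integral_line (differentiable_twist hd (-k)) hper τ
  rw [coef, ← h, coef, ← intervalIntegral.integral_const_mul]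
  refine intervalIntegral.integral_congr fun x _ => ?_
  have hw := coord_ne_zero (x : ℂ)
  simp only [hq, coord_add, mul_zpow, neg_add, zpow_add₀ hw, zpow_neg (coord (x : ℂ)) (n : ℤ),
    zpow_natCast, inv_pow]
  rw [show coord τ = nome τ from rfl]
  ring

/-- A periodic entire function without Fourier coefficients vanishes. -/
theorem eq_zero_of_coef {f : ℂ → ℂ} (hd : Differentiable ℂ f) (hp : ∀ z, f (z + 1) = f z)
    (h : ∀ k, coef f k = 0) : f = 0 := by
  have : Fact (0 < (1 : ℝ)) := ⟨one_pos⟩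
  have hper : Function.Periodic (fun x : ℝ => f x) 1 := fun x => by
    show f ((x + 1 : ℝ) : ℂ) = _
    rw [Complex.ofReal_add, Complex.ofReal_one, hp]
  let F : C(AddCircle (1 : ℝ), ℂ) :=
    ⟨hper.lift, continuous_coinduced_dom.2 (hd.continuous.comp Complex.continuous_ofReal)⟩
  have hc : fourierCoeff (F : AddCircle (1 : ℝ) → ℂ) = 0 := funext fun k => by
    rw [fourierCoeff_eq_intervalIntegral _ k 0, zero_add, div_one, one_smul]
    refine Eq.trans (intervalIntegral.integral_congr fun x _ => ?_) (h k)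
    show fourier (-k) (x : AddCircle (1 : ℝ)) • hper.lift (x : AddCircle (1 : ℝ)) = _
    rw [fourier_coe_apply, hper.lift_coe, smul_eq_mul, mul_comm, coord, ← Complex.exp_int_mul]
    push_cast
    ring_nf
  have hs := hasSum_fourier_series_of_summable (f := F) (by rw [hc]; exact summable_zero)
  have hF : F = 0 := hs.unique (by simp [hc])
  have hreal : ∀ x : ℝ, f x = 0 := fun x => by
    have := congrArg (fun G : C(AddCircle (1 : ℝ), ℂ) => G (x : AddCircle (1 : ℝ))) hF
    simpa [F, hper.lift_coe] using this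
  have hana : AnalyticOnNhd ℂ f Set.univ := hd.differentiableOn.analyticOnNhd isOpen_univ
  have ht : Tendsto (fun x : ℝ => (x : ℂ)) (𝓝[≠] 0) (𝓝[≠] 0) :=
    tendsto_nhdsWithin_of_tendsto_nhds_of_eventually_within _
      ((Complex.continuous_ofReal.tendsto' 0 0 Complex.ofReal_zero).mono_left nhdsWithin_le_nhds)
      (eventually_nhdsWithin_of_forall fun x hx => by simpa using hx)
  exact funext fun z => hana.eqOn_zero_of_preconnected_of_frequently_eq_zero
    isPreconnected_univ (Set.mem_univ 0) (ht.frequently (Eventually.frequently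
      (Eventually.of_forall hreal))) (Set.mem_univ z)

/-- A section is determined by `n` consecutive Fourier coefficients. -/
theorem eq_zero_of_coef_lt {n : ℕ} (hn : 0 < n) (hc : c ≠ 0) {f : ℂ → ℂ}
    (hf : f ∈ sections τ n c) (h : ∀ j < n, coef f j = 0) : f = 0 := by
  refine eq_zero_of_coef hf.1 hf.2.1 fun k => ?_
  have hiff : ∀ k : ℤ, coef f k = 0 ↔ coef f (k + n) = 0 := fun k => by
    rw [coef_recursion hf k]
    simp [hc, coord_ne_zero τ, nome, zpow_ne_zero]
  have main : ∀ (m : ℤ) (j : ℕ), j < n → coef f (j + m * n) = 0 := by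
    intro m j hj
    induction m using Int.induction_on with
    | zero => simpa using h j hj
    | succ m ih => rw [show (j : ℤ) + (m + 1) * n = j + m * n + n by ring, ← hiff]; exact ih
    | pred m ih => rw [hiff, show (j : ℤ) + (-m - 1) * n + n = j + -m * n by ring]; exact ih
  have hn0 : (0 : ℤ) < n := by exact_mod_cast hn
  obtain ⟨j, hj⟩ := Int.eq_ofNat_of_zero_le (Int.emod_nonneg k hn0.ne')
  have := main (k / n) j (by exact_mod_cast hj ▸ Int.emod_lt_of_pos k hn0)
  rwa [← hj, Int.emod_add_ediv_mul] at this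

/-- The coefficient map on sections. -/
def coefMap (τ : ℂ) (n : ℕ) (c : ℂ) : sections τ n c →ₗ[ℂ] Fin n → ℂ where
  toFun f j := coef f j
  map_add' f g := funext fun j => by
    simp only [Submodule.coe_add, Pi.add_apply, coef, add_mul]
    exact intervalIntegral.integral_add
      (((differentiable_twist f.2.1 _).continuous.comp Complex.continuous_ofReal).intervalIntegrable 0 1)
      (((differentiable_twist g.2.1 _).continuous.comp Complex.continuous_ofReal).intervalIntegrable 0 1)
  map_smul' a f := funext fun j => by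
    simp only [SetLike.val_smul, Pi.smul_apply, coef, smul_eq_mul, RingHom.id_apply, mul_assoc]
    exact intervalIntegral.integral_const_mul _ _

theorem finite_sections {n : ℕ} (hn : 0 < n) (hc : c ≠ 0) : Module.Finite ℂ (sections τ n c) :=
  Module.Finite.of_injective (coefMap τ n c) fun f g h => by
    rw [← sub_eq_zero] at h ⊢
    rw [← map_sub] at h
    exact Subtype.ext (eq_zero_of_coef_lt hn hc (f - g).2 fun j hj => congrFun h ⟨j, hj⟩)

/-- A product of three translates. -/
def triple (τ a b d : ℂ) (z : ℂ) : ℂ := sigma τ (z - a) * sigma τ (z - b) * sigma τ (z - d)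

lemma triple_mem (hτ : 0 < τ.im) {a b d : ℂ} (h : -coord (a + b + d) = c) :
    triple τ a b d ∈ sections τ 3 c := by
  have hd := differentiable_sigma hτ
  refine ⟨?_, fun z => ?_, fun z => ?_⟩
  · unfold triple; fun_prop
  · simp only [triple, add_sub_right_comm, sigma_add_one]
  · simp only [triple, add_sub_right_comm, sigma_add_tau hτ]
    rw [← h, coord_add, coord_add]
    simp only [sub_eq_add_neg, coord_add, coord_neg, mul_inv, inv_inv]
    ring

lemma countable_lattice (τ : ℂ) : (lattice τ : Set ℂ).Countable :=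
  (Set.countable_range fun p : ℤ × ℤ => (p.1 : ℂ) + p.2 * τ).mono fun z hz => by
    obtain ⟨m, n, h⟩ := mem_lattice.1 hz
    exact ⟨(m, n), h.symm⟩

lemma exists_avoid (τ : ℂ) (A : Set ℂ) (hA : A.Countable) : ∃ b, ∀ a ∈ A, b - a ∉ lattice τ := by
  have h : (⋃ a ∈ A, (fun l => a + l) '' (lattice τ : Set ℂ)).Countable :=
    hA.biUnion fun a _ => (countable_lattice τ).image _
  obtain ⟨b, hb⟩ : ∃ b, b ∉ ⋃ a ∈ A, (fun l => a + l) '' (lattice τ : Set ℂ) := by
    by_contra hne
    push Not at hne
    exact not_countable_complex (h.mono fun z _ => hne z)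
  exact ⟨b, fun a ha hl => hb (Set.mem_biUnion ha ⟨b - a, hl, add_sub_cancel a b⟩)⟩

lemma exists_log (hc : c ≠ 0) : ∃ s, -coord s = c := by
  refine ⟨Complex.log (-c) / (2 * π * I), ?_⟩
  rw [coord, mul_div_cancel₀ _ Complex.two_pi_I_ne_zero, Complex.exp_log (neg_ne_zero.2 hc), neg_neg]

/-- Two of the three translates can be placed off any given point. -/
lemma exists_triple (hτ : 0 < τ.im) (hc : c ≠ 0) (a w : ℂ) : ∃ b d, triple τ a b d ∈ sections τ 3 c ∧
    sigma τ (w - b) * sigma τ (w - d) ≠ 0 := by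
  obtain ⟨s, hs⟩ := exists_log hc
  obtain ⟨b, hb⟩ := exists_avoid τ {w, s - a - w} ((Set.countable_singleton _).insert _)
  refine ⟨b, s - a - b, triple_mem hτ (by rwa [show a + b + (s - a - b) = s by ring]), ?_⟩
  refine mul_ne_zero (fun h => hb w (Set.mem_insert _ _) ?_)
    (fun h => hb (s - a - w) (Set.mem_insert_of_mem _ rfl) ?_)
  · rw [← neg_mem_iff, neg_sub]; exact (sigma_eq_zero_iff hτ).1 h
  · rw [show b - (s - a - w) = w - (s - a - b) by ring]; exact (sigma_eq_zero_iff hτ).1 h

/-- No point is a common zero. -/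
theorem exists_ne_zero (hτ : 0 < τ.im) (hc : c ≠ 0) (z : ℂ) :
    ∃ f ∈ sections τ 3 c, f z ≠ 0 := by
  obtain ⟨a, ha⟩ := exists_avoid τ {z} (Set.countable_singleton _)
  obtain ⟨b, d, hm, hne⟩ := exists_triple hτ hc a z
  refine ⟨_, hm, ?_⟩
  rw [triple, mul_assoc]
  refine mul_ne_zero (fun h => ha z rfl ?_) hne
  rw [← neg_mem_iff, neg_sub]
  exact (sigma_eq_zero_iff hτ).1 h

/-- Distinct points of the torus are separated. -/
theorem exists_separate (hτ : 0 < τ.im) (hc : c ≠ 0) {z w : ℂ} (h : w - z ∉ lattice τ) :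
    ∃ f ∈ sections τ 3 c, f z = 0 ∧ f w ≠ 0 := by
  obtain ⟨b, d, hm, hne⟩ := exists_triple hτ hc z w
  refine ⟨_, hm, by simp [triple, sigma_zero], ?_⟩
  rw [triple, mul_assoc]
  exact mul_ne_zero (fun h' => h ((sigma_eq_zero_iff hτ).1 h')) hne

/-- Tangents are separated. -/
theorem exists_tangent (hτ : 0 < τ.im) (hc : c ≠ 0) (z : ℂ) :
    ∃ f ∈ sections τ 3 c, f z = 0 ∧ deriv f z ≠ 0 := by
  obtain ⟨b, d, hm, hne⟩ := exists_triple hτ hc z z
  refine ⟨_, hm, by simp [triple, sigma_zero], ?_⟩
  have hd := differentiable_sigma hτ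
  have h0 : HasDerivAt (sigma τ) (deriv (sigma τ) 0) (z - z) := by
    rw [sub_self]; exact (hd 0).hasDerivAt
  have h1 : HasDerivAt (fun x => sigma τ (x - z)) (deriv (sigma τ) 0) z := by
    exact HasDerivAt.comp_sub_const z z h0
  have h2 : DifferentiableAt ℂ (fun x => sigma τ (x - b) * sigma τ (x - d)) z := by fun_prop
  have h3 : HasDerivAt (triple τ z b d) _ z :=
    (h1.mul h2.hasDerivAt).congr_of_eventuallyEq
      (Eventually.of_forall fun x => mul_assoc _ _ _)
  rw [h3.deriv]
  simpa [sigma_zero] using mul_ne_zero (deriv_sigma_zero_ne hτ) hne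

/-- A finite family of sections embeds the torus in a projective space. -/
theorem exists_embedding (hτ : 0 < τ.im) (hc : c ≠ 0) :
    ∃ (N : ℕ) (F : Fin N → ℂ → ℂ), (∀ i, F i ∈ sections τ 3 c) ∧
      (∀ z, ∃ i, F i z ≠ 0) ∧
      (∀ z w (t : ℂ), (∀ i, F i w = t * F i z) → w - z ∈ lattice τ) ∧
      ∀ z (t : ℂ), ∃ i, deriv (F i) z ≠ t * F i z := by
  have := finite_sections (τ := τ) (n := 3) (c := c) (by norm_num) hc
  let b := Module.finBasis ℂ (sections τ 3 c)
  have hrep : ∀ f ∈ sections τ 3 c, ∃ r : Fin _ → ℂ, f = fun x => ∑ i, r i * (b i : ℂ → ℂ) x := by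
    intro f hf
    refine ⟨b.repr ⟨f, hf⟩, funext fun x => ?_⟩
    have h := congrArg ((LinearMap.proj (R := ℂ) (φ := fun _ : ℂ => ℂ) x).comp
      (sections τ 3 c).subtype) (b.sum_repr ⟨f, hf⟩)
    rw [map_sum] at h
    exact h.symm.trans (Finset.sum_congr rfl fun i _ => rfl)
  refine ⟨_, fun i => (b i : ℂ → ℂ), fun i => (b i).2, fun z => ?_, fun z w t ht => ?_, fun z t => ?_⟩
  · by_contra h
    push Not at h
    obtain ⟨f, hf, hfz⟩ := exists_ne_zero hτ hc z
    obtain ⟨r, rfl⟩ := hrep f hf
    exact hfz (by simp [h])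
  · by_contra h
    obtain ⟨f, hf, hfz, hfw⟩ := exists_separate hτ hc h
    obtain ⟨r, rfl⟩ := hrep f hf
    refine hfw ?_
    simp only [ht, mul_left_comm _ t, ← Finset.mul_sum, hfz, mul_zero]
  · by_contra h
    push Not at h
    obtain ⟨f, hf, hfz, hfd⟩ := exists_tangent hτ hc z
    obtain ⟨r, rfl⟩ := hrep f hf
    refine hfd ?_
    rw [deriv_fun_sum fun i _ => ((b i).2.1 z).const_mul (r i)]
    simp only [deriv_const_mul _ ((b _).2.1 z), h, mul_left_comm _ t, ← Finset.mul_sum, hfz, mul_zero]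

end Vale.Agent.P296.Theta
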