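import Vale.Agent.P296.Theta.Sections

/-!
# P296: the series basis of the sections of degree `n`

`series τ n j` is the sum of `q ^ (k ^ 2) * coord z ^ k`, `q = exp (π i τ / n)`, over the integers
`k` congruent to `j` modulo `n`, written with the theta function of Mathlib. For `j = 0, ..., n - 1`
these are eigenvectors of the translation by `1 / n` with distinct eigenvalues, hence a basis of the
sections of degree `n` with factor `exp (-π i n τ)`. So for every factor the sections of degree
`n > 0` form a space of dimension exactly `n`.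
-/

noncomputable section

namespace Vale.Agent.P296.Theta

open Complex Filter Topology
open scoped Real

variable {τ : ℂ} {n : ℕ}

/-- The factor of the series of degree `n`. -/
def seriesFactor (τ : ℂ) (n : ℕ) : ℂ := cexp (-(π * I * n * τ))

/-- The series over the class of `j` modulo `n`. -/
def series (τ : ℂ) (n : ℕ) (j : ℤ) (z : ℂ) : ℂ :=
  cexp (π * I * τ * j ^ 2 / n + 2 * π * I * j * z) * jacobiTheta₂ (n * z + j * τ) (n * τ)

lemma seriesFactor_ne_zero : seriesFactor τ n ≠ 0 := Complex.exp_ne_zero _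

lemma im_mul_pos (hτ : 0 < τ.im) (hn : 0 < n) : 0 < ((n : ℂ) * τ).im := by
  have : (0 : ℝ) < n := by exact_mod_cast hn
  simpa using mul_pos this hτ

/-- The series, written out. -/
lemma hasSum_series (hτ : 0 < τ.im) (hn : 0 < n) (j : ℤ) (z : ℂ) :
    HasSum (fun m : ℤ => cexp (π * I * τ * ((j + n * m : ℤ) : ℂ) ^ 2 / n) * coord z ^ (j + n * m))
      (series τ n j z) := by
  have hn0 : (n : ℂ) ≠ 0 := by exact_mod_cast hn.ne'
  refine ((hasSum_jacobiTheta₂_term _ (im_mul_pos hτ hn)).mul_left _).congr_fun fun m => ?_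
  rw [jacobiTheta₂_term, coord, ← Complex.exp_int_mul, ← Complex.exp_add, ← Complex.exp_add]
  congr 1
  push_cast
  field_simp
  ring

lemma jacobi_add_int (m : ℤ) (z t : ℂ) : jacobiTheta₂ (z + m) t = jacobiTheta₂ z t := by
  have h : Function.Periodic (fun w => jacobiTheta₂ w t) 1 := fun w => jacobiTheta₂_add_left w t
  simpa using h.int_mul m z

lemma differentiable_series (hτ : 0 < τ.im) (hn : 0 < n) (j : ℤ) :
    Differentiable ℂ (series τ n j) := fun z => by
  refine DifferentiableAt.mul (by fun_prop) ?_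
  exact (differentiableAt_jacobiTheta₂_fst _ (im_mul_pos hτ hn)).comp z (by fun_prop)

lemma series_add_one (j : ℤ) (z : ℂ) : series τ n j (z + 1) = series τ n j z := by
  have h : (n : ℂ) * (z + 1) + j * τ = n * z + j * τ + ((n : ℤ) : ℂ) := by push_cast; ring
  rw [series, series, h, jacobi_add_int,
    show π * I * τ * (j : ℂ) ^ 2 / n + 2 * π * I * j * (z + 1)
      = π * I * τ * (j : ℂ) ^ 2 / n + 2 * π * I * j * z + j * (2 * π * I) by ring,
    Complex.exp_add, Complex.exp_int_mul_two_pi_mul_I, mul_one]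

lemma series_add_tau (j : ℤ) (z : ℂ) :
    series τ n j (z + τ) = seriesFactor τ n * (coord z)⁻¹ ^ n * series τ n j z := by
  have h : (n : ℂ) * (z + τ) + j * τ = n * z + j * τ + n * τ := by ring
  rw [series, series, h, jacobiTheta₂_add_left', seriesFactor, coord, inv_pow,
    ← Complex.exp_nat_mul, ← Complex.exp_neg, ← mul_assoc, ← mul_assoc, ← Complex.exp_add,
    ← Complex.exp_add, ← Complex.exp_add]
  ring_nf

theorem series_mem (hτ : 0 < τ.im) (hn : 0 < n) (j : ℤ) :
    series τ n j ∈ sections τ n (seriesFactor τ n) :=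
  ⟨differentiable_series hτ hn j, series_add_one j, series_add_tau j⟩

lemma series_add_inv (hn : 0 < n) (j : ℤ) (z : ℂ) :
    series τ n j (z + (n : ℂ)⁻¹) = coord ((j : ℂ) / n) * series τ n j z := by
  have hn0 : (n : ℂ) ≠ 0 := by exact_mod_cast hn.ne'
  have h : (n : ℂ) * (z + (n : ℂ)⁻¹) + j * τ = n * z + j * τ + ((1 : ℤ) : ℂ) := by
    rw [mul_add, mul_inv_cancel₀ hn0]; push_cast; ring
  rw [series, series, h, jacobi_add_int, coord, ← mul_assoc, ← Complex.exp_add]
  ring_nf

/-- The constant Fourier coefficient of the theta function. -/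
lemma integral_jacobi {t : ℂ} (ht : 0 < t.im) : ∫ x in (0:ℝ)..1, jacobiTheta₂ x t = 1 := by
  let f : ℤ → C(ℝ, ℂ) := fun m =>
    ⟨fun x => jacobiTheta₂_term m x t, by unfold jacobiTheta₂_term; fun_prop⟩
  have hs : Summable fun m : ℤ => Real.exp (-π * m ^ 2 * t.im) := by
    have h := ((summable_jacobiTheta₂_term_iff 0 t).2 ht).norm
    refine h.congr fun m => ?_
    rw [norm_jacobiTheta₂_term]
    simp
  have hf : Summable fun m : ℤ =>
      ‖(f m).restrict (⟨Set.uIcc (0:ℝ) 1, isCompact_uIcc⟩ : TopologicalSpace.Compacts ℝ)‖ := by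
    refine hs.of_nonneg_of_le (fun m => norm_nonneg _) fun m => ?_
    rw [ContinuousMap.norm_le _ (Real.exp_nonneg _)]
    intro x
    simp [f, norm_jacobiTheta₂_term]
  have h := intervalIntegral.tsum_intervalIntegral_eq_of_summable_norm hf
  simp only [f, ContinuousMap.coe_mk] at h
  rw [show (∫ x in (0:ℝ)..1, jacobiTheta₂ x t)
      = ∫ x in (0:ℝ)..1, ∑' m : ℤ, jacobiTheta₂_term m x t from rfl, ← h, tsum_eq_single 0]
  · simp [jacobiTheta₂_term]
  · intro m hm
    have hc : (2 * π * I * m : ℂ) ≠ 0 := mul_ne_zero Complex.two_pi_I_ne_zero (by exact_mod_cast hm)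
    simp only [jacobiTheta₂_term, Complex.exp_add, intervalIntegral.integral_mul_const]
    rw [integral_exp_mul_complex hc]
    simp [show 2 * π * I * (m : ℂ) = m * (2 * π * I) by ring, Complex.exp_int_mul_two_pi_mul_I]

theorem series_ne_zero (hτ : 0 < τ.im) (hn : 0 < n) (j : ℤ) : series τ n j ≠ 0 := fun h => by
  have hn0 : (n : ℂ) ≠ 0 := by exact_mod_cast hn.ne'
  have hz : ∀ x : ℝ, jacobiTheta₂ x (n * τ) = 0 := fun x => by
    have h2 := congrFun h (((x : ℂ) - j * τ) / n)
    rw [series, Pi.zero_apply, mul_eq_zero] at h2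
    rcases h2 with h2 | h2
    · exact absurd h2 (Complex.exp_ne_zero _)
    · rwa [mul_div_cancel₀ _ hn0, sub_add_cancel] at h2
  simpa [hz] using integral_jacobi (im_mul_pos hτ hn)

/-- Translation of functions. -/
def translate (a : ℂ) : (ℂ → ℂ) →ₗ[ℂ] (ℂ → ℂ) := LinearMap.funLeft ℂ ℂ fun z => z + a

@[simp] lemma translate_apply (a : ℂ) (f : ℂ → ℂ) (z : ℂ) : translate a f z = f (z + a) := rfl

/-- The series of the classes modulo `n` are linearly independent. -/
theorem linearIndependent_series (hτ : 0 < τ.im) (hn : 0 < n) :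
    LinearIndependent ℂ fun j : Fin n => series τ n (j : ℕ) := by
  have hn0 : (n : ℂ) ≠ 0 := by exact_mod_cast hn.ne'
  refine Module.End.eigenvectors_linearIndependent' (translate (n : ℂ)⁻¹)
    (fun j : Fin n => coord ((j : ℕ) / n)) ?_ _ fun j =>
      ⟨Module.End.mem_eigenspace_iff.2 (funext fun z => ?_), series_ne_zero hτ hn _⟩
  · intro i j h
    have h1 : coord (((i : ℕ) : ℂ) / n - ((j : ℕ) : ℂ) / n) = 1 := by
      rw [sub_eq_add_neg, coord_add, coord_neg, show coord (((i : ℕ) : ℂ) / n) = _ from h,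
        mul_inv_cancel₀ (coord_ne_zero _)]
    obtain ⟨m, hm⟩ := coord_eq_one_iff.1 h1
    rw [← sub_div, div_eq_iff hn0] at hm
    have hm2 : ((i : ℕ) : ℤ) - (j : ℕ) = m * (n : ℤ) := by exact_mod_cast hm
    have hi : ((i : ℕ) : ℤ) < n := by exact_mod_cast i.isLt
    have hj : ((j : ℕ) : ℤ) < n := by exact_mod_cast j.isLt
    have hm0 : m = 0 := by
      by_contra hcon
      rcases lt_or_gt_of_ne hcon with hlt | hgt
      · nlinarith
      · nlinarith
    rw [hm0, zero_mul, sub_eq_zero] at hm2
    exact Fin.ext (by exact_mod_cast hm2)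
  · rw [translate_apply, series_add_inv hn]
    simp

/-- Sections are translated to sections. -/
theorem translate_mem {c : ℂ} {f : ℂ → ℂ} (hf : f ∈ sections τ n c) (a : ℂ) :
    translate a f ∈ sections τ n (c * (coord a)⁻¹ ^ n) := by
  obtain ⟨h1, h2, h3⟩ := hf
  refine ⟨h1.comp (differentiable_id.add_const a), fun z => ?_, fun z => ?_⟩
  · simp only [translate_apply, add_right_comm z 1 a, h2]
  · simp only [translate_apply, add_right_comm z τ a, h3, coord_add, mul_inv, mul_pow]
    ring

lemma exists_shift {c : ℂ} (hn : 0 < n) (hc : c ≠ 0) :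
    ∃ a, seriesFactor τ n * (coord a)⁻¹ ^ n = c := by
  have hn0 : (n : ℂ) ≠ 0 := by exact_mod_cast hn.ne'
  have hd : seriesFactor τ n / c ≠ 0 := div_ne_zero seriesFactor_ne_zero hc
  refine ⟨Complex.log (seriesFactor τ n / c) / (2 * π * I * n), ?_⟩
  rw [coord, inv_pow, ← Complex.exp_nat_mul,
    show (n : ℂ) * (2 * π * I * (Complex.log (seriesFactor τ n / c) / (2 * π * I * n)))
      = Complex.log (seriesFactor τ n / c) by field_simp,
    Complex.exp_log hd, inv_div, mul_div_cancel₀ _ seriesFactor_ne_zero]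

/-- The sections of degree `n > 0` form a space of dimension `n`. -/
theorem finrank_sections (hτ : 0 < τ.im) (hn : 0 < n) {c : ℂ} (hc : c ≠ 0) :
    Module.finrank ℂ (sections τ n c) = n := by
  have := finite_sections (τ := τ) hn hc
  apply le_antisymm
  · refine (LinearMap.finrank_le_finrank_of_injective (f := coefMap τ n c) fun f g h => ?_).trans
      (by simp)
    rw [← sub_eq_zero] at h ⊢
    rw [← map_sub] at h
    exact Subtype.ext (eq_zero_of_coef_lt hn hc (f - g).2 fun j hj => congrFun h ⟨j, hj⟩)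
  · obtain ⟨a, ha⟩ := exists_shift (τ := τ) hn hc
    have hmem : ∀ j : Fin n, translate a (series τ n (j : ℕ)) ∈ sections τ n c := fun j => by
      have h := translate_mem (series_mem hτ hn ((j : ℕ) : ℤ)) a
      rwa [ha] at h
    let v : Fin n → sections τ n c := fun j => ⟨translate a (series τ n (j : ℕ)), hmem j⟩
    have hinj : LinearMap.ker (translate a) = ⊥ := LinearMap.ker_eq_bot.2 fun f g h => funext fun z => by
      simpa using congrFun h (z - a)
    have hv : LinearIndependent ℂ v :=
      LinearIndependent.of_comp (sections τ n c).subtype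
      ((linearIndependent_series hτ hn).map' (translate a) hinj)
    simpa using hv.fintype_card_le_finrank

/-- The series span the sections with their factor. -/
theorem exists_series_coords (hτ : 0 < τ.im) (hn : 0 < n) {f : ℂ → ℂ}
    (hf : f ∈ sections τ n (seriesFactor τ n)) :
    ∃ w : Fin n → ℂ, f = ∑ j : Fin n, w j • series τ n (j : ℕ) := by
  have := finite_sections (τ := τ) hn (seriesFactor_ne_zero (τ := τ) (n := n))
  let v : Fin n → sections τ n (seriesFactor τ n) := fun j => ⟨_, series_mem hτ hn (j : ℕ)⟩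
  have hv : LinearIndependent ℂ v := .of_comp (sections τ n _).subtype (linearIndependent_series hτ hn)
  have : Nonempty (Fin n) := ⟨⟨0, hn⟩⟩
  let b := basisOfLinearIndependentOfCardEqFinrank hv
    (by rw [Fintype.card_fin, finrank_sections hτ hn seriesFactor_ne_zero])
  refine ⟨fun j => b.repr ⟨f, hf⟩ j, ?_⟩
  have h := congrArg Subtype.val (b.sum_repr ⟨f, hf⟩)
  simpa [b, v] using h.symm

end Vale.Agent.P296.Theta
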